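import Vale.Agent.P216.B64.MainN
import Vale.Agent.P216.R337.RD

/-!
# Theorem B of P216 for all `n ≥ 4`
-/

open Set Topology Bundle Manifold
open scoped ContDiff
open Vale.Agent.P216.H494

namespace Vale.Agent.P216.B609

open B64

/-- The topology side of [RHO]. -/
theorem xRhoGoal : XRhoGoal :=
  R337.xRhoGoal (H754B.omegaGoal0_of Vale.Agent.P216.Crs.cross)

/-- **Theorem B.** Every smooth Riemannian metric on a closed manifold homeomorphic to `S^n`,
`n ≥ 4`, has infinitely many prime closed geodesics. -/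
theorem theoremB
    {E : Type} [NormedAddCommGroup E] [NormedSpace ℝ E] [FiniteDimensional ℝ E]
    {M : Type} [MetricSpace M] [CompactSpace M] [ChartedSpace E M] [IsManifold 𝓘(ℝ, E) ∞ M]
    [RiemannianBundle (fun x : M => TangentSpace 𝓘(ℝ, E) x)]
    [IsContMDiffRiemannianBundle 𝓘(ℝ, E) ∞ E (fun x : M => TangentSpace 𝓘(ℝ, E) x)]
    [IsRiemannianManifold 𝓘(ℝ, E) M] {n : ℕ} (hn : 4 ≤ n)
    (e : M ≃ₜ Metric.sphere (0 : EuclideanSpace ℝ (Fin (n + 1))) 1) :
    (primeClosedGeodesicImages M).Infinite :=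
  main_X B64.xGoal xRhoGoal (E := E) hn e

end Vale.Agent.P216.B609
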