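import Vale.Agent.P216.H804.Count
import Vale.Agent.P216.AS.Bridge
import Vale.Agent.P216.AS.Htpy

/-!
# Theorem B of P216: finiteness and bounded finite bars from the bound of every critical level
-/

open Set Topology
open Module (finrank)

namespace Vale.Agent.P216.B609

open Vale.Agent.P265.AS (hh hh_triple hh_self)

section Alg

/-- A sequence of cardinals with bounded partial sums vanishes eventually. -/
theorem eventually_zero {f : ℕ → Cardinal} {C : ℕ}
    (h : ∀ m, ∑ n ∈ Finset.range m, f n ≤ (C : Cardinal)) : ∃ N, ∀ n ≥ N, f n = 0 := by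
  have hfin : {n | f n ≠ 0}.Finite := by
    by_contra hinf
    obtain ⟨s, hs, hcard⟩ := (show {n | f n ≠ 0}.Infinite from hinf).exists_subset_card_eq (C + 1)
    obtain ⟨m, hm⟩ := s.bddAbove
    have h1 : s ⊆ Finset.range (m + 1) := fun n hn => Finset.mem_range.2 (Nat.lt_succ_of_le (hm hn))
    have h2 : (∑ n ∈ s, (1 : Cardinal)) ≤ ∑ n ∈ Finset.range (m + 1), f n :=
      (Finset.sum_le_sum fun n hn => Cardinal.one_le_iff_ne_zero.2 (hs hn)).trans
        (Finset.sum_le_sum_of_subset h1)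
    rw [Finset.sum_const, hcard, nsmul_eq_mul, mul_one] at h2
    have h3 := h2.trans (h (m + 1))
    have h4 : C + 1 ≤ C := by exact_mod_cast h3
    omega
  obtain ⟨N, hN⟩ := hfin.bddAbove
  refine ⟨N + 1, fun n hn => ?_⟩
  by_contra h1
  have := hN h1
  omega

variable {k : Type} [Field k] {U V W : Type} [AddCommGroup U] [Module k U] [AddCommGroup V]
  [Module k V] [AddCommGroup W] [Module k W]

theorem rank_quot_le {r : U →ₗ[k] V} {δ : V →ₗ[k] W}
    (h : LinearMap.ker δ = LinearMap.range r) :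
    Module.rank k (V ⧸ LinearMap.range r) ≤ Module.rank k W := by
  rw [← h]
  exact (LinearMap.quotKerEquivRange δ).rank_eq.trans_le (Submodule.rank_le _)

end Alg

section Coh

variable {E : Type} [PseudoMetricSpace E] {k : Type} [Field k] {I : Type} {a : I → E → E}
  {χ : I → k}

/-- the connecting homomorphism `H^n(A) → H^{n+1}(X, A)` -/
theorem exists_del {X A : Set E} (hA : A ⊆ X) (hi : AS.Inv a A) (n : ℕ) :
    ∃ δ : AS.Ha a χ A n →ₗ[k] AS.Hr a χ X A (n + 1),
      LinearMap.ker δ = LinearMap.range (AS.res hA n : AS.Ha a χ X n →ₗ[k] AS.Ha a χ A n) := by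
  have hb := AS.world_bijective' (a := a) (χ := χ) hA (le_refl A) hi n
  let e := LinearEquiv.ofBijective _ hb
  have hex := AS.exact_del (n := n) (AS.Zr_anti (le_refl X) hA :
    AS.Zr a χ X X ≤ AS.Zr a χ X A) (AS.Zr_le_Cc : AS.Zr a χ X A ≤ AS.Cc a χ X)
  refine ⟨AS.Hdel _ _ _ n ∘ₗ e.symm.toLinearMap, ?_⟩
  ext y
  rw [LinearMap.mem_ker, LinearMap.comp_apply, hex]
  constructor
  · rintro ⟨x, hx⟩
    refine ⟨x, ?_⟩
    have h1 : e (AS.Hinc le_rfl (AS.Zr_anti (le_refl X) hA) n x) = y := by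
      rw [hx]; exact e.apply_symm_apply y
    rw [← h1]
    obtain ⟨c, hc, rfl⟩ := AS.H.exists_mk x
    rfl
  · rintro ⟨x, rfl⟩
    refine ⟨x, ?_⟩
    apply e.injective
    rw [LinearEquiv.coe_coe, e.apply_symm_apply]
    obtain ⟨c, hc, rfl⟩ := AS.H.exists_mk x
    rfl

end Coh

end Vale.Agent.P216.B609

namespace Vale.Agent.P216.GSys

open Vale.Agent.P265.AS (hh hh_triple hh_self)
open H804 B609

variable {Λ : Type} [PseudoMetricSpace Λ] (S : GSys Λ)

/-- restriction of the twisted cohomology -/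
abbrev rV (k : Type) [Field k] {s t : ℝ} (h : s ≤ t) (n : ℕ) : S.V k t n →ₗ[k] S.V k s n :=
  AS.res (S.mono s t h) n

theorem rV_rV {k : Type} [Field k] {r s t : ℝ} (h : r ≤ s) (h' : s ≤ t) (n : ℕ) (x : S.V k t n) :
    S.rV k h n (S.rV k h' n x) = S.rV k (h.trans h') n x :=
  AS.res_res (S.mono _ _ h') (S.mono _ _ h) x

theorem range_rV_le {k : Type} [Field k] {r s t : ℝ} (h : r ≤ s) (h' : s ≤ t) (n : ℕ) :
    LinearMap.range (S.rV k (h.trans h') n) ≤ LinearMap.range (S.rV k h n) := by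
  rintro _ ⟨x, rfl⟩
  exact ⟨S.rV k h' n x, S.rV_rV h h' n x⟩

/-- The images of the restriction maps are stable after a shift by `B`, for all odd primes. -/
def StableBars (B : ℝ) : Prop := ∀ p : ℕ, ∀ _ : Fact p.Prime, 2 < p → ∀ s t : ℝ, 0 < s →
  ∀ (h : s ≤ s + B) (h' : s + B ≤ t) (n : ℕ),
    LinearMap.range (S.rV (ZMod p) h n) ≤ LinearMap.range (S.rV (ZMod p) (h.trans h') n)

/-- Finiteness at a low level. -/
def BaseFin : Prop := ∃ s₀ : ℝ, 0 < s₀ ∧ (∀ i, s₀ < S.ℓ i) ∧ ∀ p : ℕ, ∀ _ : Fact p.Prime, 2 < p →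
  (∀ n, Module.Finite (ZMod p) (S.V (ZMod p) s₀ n)) ∧
    ∃ N, ∀ n ≥ N, Subsingleton (S.V (ZMod p) s₀ n)

theorem inv_τ (s : ℝ) : AS.Inv (fun _ : Unit => S.τ) (S.X s) := fun _ x =>
  S.inv_X s x

theorem exists_reg_level {a b : ℝ} (h : a < b) : ∃ t ∈ Icc a b, t ∉ AS.Crit S.ℓ := by
  have := S.fin
  obtain ⟨inst⟩ := nonempty_fintype S.ι
  obtain ⟨F, hF, -⟩ := exists_finset_crit S.ℓ_pos (s := a) (t := b) (L := b - a) (by linarith)
  have h1 : (Icc a b \ (F : Set ℝ)).Nonempty :=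
    ((Icc_infinite h).sdiff F.finite_toSet).nonempty
  obtain ⟨t, ht⟩ := h1
  exact ⟨t, ht.1, fun hc => ht.2 (hF ⟨hc, ht.1⟩)⟩

/-- Between regular levels at distance at most `L` the total relative cohomology is bounded
uniformly in the prime. -/
theorem exists_sum_hh_le (hL : S.LevelBound) (L : ℝ) : ∃ K : ℕ, ∀ p : ℕ, ∀ _ : Fact p.Prime,
    2 < p → ∀ s t : ℝ, 0 < s → s ≤ t → t ≤ s + L → s ∉ AS.Crit S.ℓ → t ∉ AS.Crit S.ℓ → ∀ m : ℕ,
    ∑ q ∈ Finset.range m, hh S.τ (-1 : ZMod p) (S.X t) (S.X s) q ≤ (K : Cardinal) := by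
  have := S.fin
  obtain ⟨inst⟩ := nonempty_fintype S.ι
  obtain ⟨C, hC⟩ := hL
  refine ⟨(∑ i, (⌊L / S.ℓ i⌋₊ + 1)) * C, fun p hp hp2 s t hs hst htL hsc htc m => ?_⟩
  obtain ⟨F, hF, hFc⟩ := exists_finset_crit S.ℓ_pos (s := s) (t := t) (L := L) (by linarith)
  refine (S.sum_hh_le (hC p hp hp2) hs hsc m F.card F rfl t hst htc hF).trans ?_
  exact_mod_cast Nat.mul_le_mul_right C hFc

theorem not_crit_of_lt' {s₀ : ℝ} (h : ∀ i, s₀ < S.ℓ i) {a : ℝ} (ha : a ≤ s₀) :
    a ∉ AS.Crit S.ℓ := by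
  rintro ⟨i, m, hm, rfl⟩
  have h1 : (1 : ℝ) ≤ m := by exact_mod_cast hm
  have h2 := S.ℓ_pos i
  have h3 := h i
  nlinarith

/-- Finiteness at all regular levels. -/
theorem finite_of_levelBound (hL : S.LevelBound) (h0 : S.BaseFin) (p : ℕ) [Fact p.Prime]
    (hp : 2 < p) (s : ℝ) (hs : 0 < s) (hsc : s ∉ AS.Crit S.ℓ) :
    (∀ n, Module.Finite (ZMod p) (S.V (ZMod p) s n)) ∧
      ∃ N, ∀ n ≥ N, Subsingleton (S.V (ZMod p) s n) := by
  obtain ⟨s₀, hs₀, hℓ, h0⟩ := h0
  obtain ⟨h1, N, hN⟩ := h0 p inferInstance hp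
  rcases le_total s s₀ with h | h
  · have hb := fun n => S.res_bijective (k := ZMod p) hs h
      (fun a ha => S.not_crit_of_lt' hℓ ha.2) (S.mono _ _ h) n
    refine ⟨fun n => ?_, N, fun n hn => ?_⟩
    · have := h1 n
      exact Module.Finite.of_surjective _ (hb n).2
    · have := hN n hn
      exact (hb n).2.subsingleton
  · obtain ⟨K, hK⟩ := S.exists_sum_hh_le hL (s - s₀)
    have hsum := hK p inferInstance hp s₀ s hs₀ h (by linarith)
      (S.not_crit_of_lt' hℓ le_rfl) hsc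
    have hle : ∀ n, Module.rank (ZMod p) (S.V (ZMod p) s n) ≤
        Module.rank (ZMod p) (S.V (ZMod p) s₀ n) + hh S.τ (-1 : ZMod p) (S.X s) (S.X s₀) n := by
      intro n
      rw [H804.rank_Ha, H804.rank_Ha]
      exact hh_triple (empty_subset _) (S.mono _ _ h) (S.inv_X s₀) _ n
    obtain ⟨N', hN'⟩ := eventually_zero hsum
    refine ⟨fun n => ?_, max N N', fun n hn => ?_⟩
    · rw [← Module.rank_lt_aleph0_iff]
      refine (hle n).trans_lt (Cardinal.add_lt_aleph0 ?_ ?_)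
      · have := h1 n
        exact Module.rank_lt_aleph0 _ _
      · refine lt_of_le_of_lt ?_ (Cardinal.natCast_lt_aleph0 (n := K))
        refine le_trans ?_ (hsum (n + 1))
        exact Finset.single_le_sum (f := fun n => hh S.τ (-1 : ZMod p) (S.X s) (S.X s₀) n)
          (fun _ _ => zero_le) (Finset.self_mem_range_succ n)
    · have h2 := hle n
      have := hN n ((le_max_left _ _).trans hn)
      have h3 : Module.rank (ZMod p) (S.V (ZMod p) s₀ n) = 0 := rank_zero_iff.2 this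
      rw [hN' n ((le_max_right _ _).trans hn), add_zero, h3] at h2
      exact rank_zero_iff.1 (le_antisymm h2 zero_le)

/-- The dimension of the finite bars is bounded, uniformly in the level and in the prime. -/
theorem bars_of_levelBound (hL : S.LevelBound) {B : ℝ} (hB0 : 0 ≤ B) (hB : S.StableBars B)
    (h0 : S.BaseFin) : ∃ K : ℕ, ∀ p : ℕ, ∀ _ : Fact p.Prime, 2 < p → ∀ s : ℝ, 0 < s →
      s ∉ AS.Crit S.ℓ → ∀ (t : ℝ) (h : s ≤ t), s + B ≤ t → ∀ m : ℕ,
        ∑ n ∈ Finset.range m, (finrank (ZMod p) (S.V (ZMod p) s n) -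
          finrank (ZMod p) (LinearMap.range (S.rV (ZMod p) h n))) ≤ K := by
  obtain ⟨K, hK⟩ := S.exists_sum_hh_le hL (B + 1)
  refine ⟨K, fun p hp hp2 s hs hsc t hst hBt m => ?_⟩
  obtain ⟨T, hT, hTc⟩ := S.exists_reg_level (a := s + B) (b := s + (B + 1)) (by linarith)
  have hsT : s ≤ T := by linarith [hT.1]
  have hsum := hK p hp hp2 s T hs hsT hT.2 hsc hTc (m + 1)
  have hfin := (S.finite_of_levelBound hL h0 p hp2 s hs hsc).1
  have hle : ∀ n, ((finrank (ZMod p) (S.V (ZMod p) s n) -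
      finrank (ZMod p) (LinearMap.range (S.rV (ZMod p) hst n)) : ℕ) : Cardinal) ≤
      hh S.τ (-1 : ZMod p) (S.X T) (S.X s) (n + 1) := by
    intro n
    have := hfin n
    obtain ⟨δ, hδ⟩ := exists_del (k := ZMod p) (χ := fun _ : Unit => (-1 : ZMod p))
      (S.mono _ _ hsT) (S.inv_τ s) n
    have h1 := rank_quot_le hδ
    rw [AS.rank_Hr] at h1
    refine le_trans ?_ h1
    have h2 : LinearMap.range (S.rV (ZMod p) hsT n) ≤ LinearMap.range (S.rV (ZMod p) hst n) :=
      (S.range_rV_le (k := ZMod p) (show s ≤ s + B by linarith) hT.1 n).trans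
        (hB p hp hp2 s t hs (by linarith) hBt n)
    have h3 : finrank (ZMod p) (S.V (ZMod p) s n) -
        finrank (ZMod p) (LinearMap.range (S.rV (ZMod p) hst n)) ≤
        finrank (ZMod p) (S.V (ZMod p) s n ⧸ LinearMap.range (S.rV (ZMod p) hsT n)) := by
      have h4 := Submodule.finrank_mono h2
      have h5 := Submodule.finrank_quotient_add_finrank (LinearMap.range (S.rV (ZMod p) hsT n))
      omega
    calc _ ≤ ((finrank (ZMod p)
          (S.V (ZMod p) s n ⧸ LinearMap.range (S.rV (ZMod p) hsT n)) : ℕ) : Cardinal) := by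
          exact_mod_cast h3
      _ = _ := Module.finrank_eq_rank _ _
  have h1 : ((∑ n ∈ Finset.range m, (finrank (ZMod p) (S.V (ZMod p) s n) -
      finrank (ZMod p) (LinearMap.range (S.rV (ZMod p) hst n))) : ℕ) : Cardinal) ≤ K := by
    push_cast
    refine le_trans (Finset.sum_le_sum fun n _ => hle n) ?_
    rw [Finset.sum_range_succ'] at hsum
    exact le_self_add.trans hsum
  exact_mod_cast h1

end Vale.Agent.P216.GSys
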