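import Vale.Agent.P216.B609.SphCoh
import Vale.Agent.P216.B609.FinB
import Vale.Agent.P216.Low.Zero
import Vale.Agent.P216.H41.Eul3
import Mathlib.Analysis.InnerProductSpace.EuclideanDist
import Mathlib.Geometry.Manifold.Instances.Sphere

/-!
# Theorem B of P216: finiteness at the low levels for manifolds homeomorphic to a sphere
-/

open Set Topology
open Module (finrank)
open Vale.Agent.P216.Low
open Vale.Agent.P216.H288 Vale.Agent.P216.H494 Vale.Agent.P216.L250

namespace Vale.Agent.P216.B609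

/-- The two models of the round sphere. -/
noncomputable def sphHomeo (n : ℕ) :
    Metric.sphere (0 : EuclideanSpace ℝ (Fin (n + 1))) 1 ≃ₜ YS n :=
  (EuclideanSpace.equiv (Fin (n + 1)) ℝ).toHomeomorph.subtype fun x => by
    rw [mem_sphere_zero_iff_norm]
    change ‖x‖ = 1 ↔ nn (fun i => x i) = 1
    have h1 : ‖x‖ ^ 2 = nn fun i => x i := by
      rw [EuclideanSpace.norm_sq_eq]
      exact Finset.sum_congr rfl fun i _ => by rw [Real.norm_eq_abs, sq_abs]
    rw [← h1]
    constructor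
    · intro h; rw [h, one_pow]
    · intro h
      exact (pow_eq_one_iff_of_nonneg (norm_nonneg x) two_ne_zero).1 h

section

variable {M : Type} [MetricSpace M] {k : Type} [Field k]

theorem rank_of_homeo [CompactSpace M] {n : ℕ}
    (e : M ≃ₜ Metric.sphere (0 : EuclideanSpace ℝ (Fin (n + 1))) 1) (q : ℕ) :
    Module.rank k (Hu k (univ : Set M) q) ≤ (if q = 0 then 1 else 0) + if q = n then 1 else 0 := by
  obtain ⟨φ⟩ := H41.nonempty_equiv_of_homotopyEquiv (k := k) (isCompact_YS (n := n))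
    ((e.trans (sphHomeo n)).toHomotopyEquiv) q
  have h1 := φ.rank_eq
  have h2 : Module.rank k (H41.Hs k (YS n) q) = P265.AS.hh id (1 : k) (YS n) ∅ q := AS.rank_Ha
  refine (h1.symm.trans h2).trans_le (hh_YS_le q)

theorem base0 [CompactSpace M] (G : GeoList M) (hD : DescentStmt (Hol.triv : Hol M) G) {n : ℕ}
    (e : M ≃ₜ Metric.sphere (0 : EuclideanSpace ℝ (Fin (n + 1))) 1) :
    ∃ s₀ : ℝ, 0 < s₀ ∧ (∀ i, s₀ < (mkGSys Hol.triv G hD).ℓ i) ∧ ∀ (k : Type) [Field k] (q : ℕ),
      Module.Finite k ((mkGSys Hol.triv G hD).V k s₀ q) ∧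
      (q ≠ 0 → q ≠ n → Subsingleton ((mkGSys Hol.triv G hD).V k s₀ q)) := by
  obtain ⟨s₁, hr⟩ := exists_retr (Hol.triv : Hol M) G hD
  obtain ⟨s₀, h0, h1, h2⟩ := GSys.exists_lt_ℓ (mkGSys Hol.triv G hD) hr.pos
  refine ⟨s₀, h0, h2, fun k _ q => ?_⟩
  have hb := hr.res_bijective (k := k) h0 h1 h2 q
  have h3 : (mkGSys Hol.triv G hD).X 0 = Xt Hol.triv 0 := XX_eq le_rfl
  have hrank : Module.rank k ((mkGSys Hol.triv G hD).V k s₀ q) ≤
      (if q = 0 then 1 else 0) + if q = n then 1 else 0 := by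
    rw [(LinearEquiv.ofBijective _ hb).rank_eq]
    refine le_trans (le_of_eq ?_) (rank_of_homeo (k := k) e q)
    rw [← (LinearEquiv.ofBijective _ (sec_bijective (k := k) (Hol.triv : Hol M) q)).rank_eq]
    rw [h3]
    rfl
  constructor
  · rw [← Module.rank_lt_aleph0_iff]
    have h4 : ∀ P : Prop, ∀ _ : Decidable P, (if P then 1 else 0 : Cardinal) < Cardinal.aleph0 := by
      intro P _
      split_ifs
      · exact Cardinal.one_lt_aleph0
      · exact Cardinal.aleph0_pos
    exact hrank.trans_lt (Cardinal.add_lt_aleph0 (h4 _ _) (h4 _ _))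
  · intro hq0 hqn
    rw [if_neg hq0, if_neg hqn, add_zero] at hrank
    exact rank_zero_iff.1 (le_antisymm hrank zero_le)

/-- **BASE0** -/
theorem baseFin [CompactSpace M] (G : GeoList M) (hD : DescentStmt (Hol.triv : Hol M) G) {n : ℕ}
    (e : M ≃ₜ Metric.sphere (0 : EuclideanSpace ℝ (Fin (n + 1))) 1) :
    (mkGSys Hol.triv G hD).BaseFin := by
  obtain ⟨s₀, h0, h1, h⟩ := base0 G hD e
  refine ⟨s₀, h0, h1, fun p hp _ => ⟨fun q => (h (ZMod p) q).1, n + 1, fun q hq => ?_⟩⟩
  exact (h (ZMod p) q).2 (by omega) (by omega)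

end

end Vale.Agent.P216.B609
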