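import Vale.Agent.P216.Tight923.EndC

/-!
# P216-D: the endgame for one large prime, and for an unbounded set of primes
-/

open Filter Topology Set

namespace Vale.Agent.P216.B609

open Vale.Agent.P216.AS

/-- **Endgame for one prime** `p` with `C < p * c`; `c` only depends on the lengths. -/
theorem endgame1 {ι : Type*} [Finite ι] (ℓ : ι → ℝ) (hℓ : ∀ i, 0 < ℓ i) :
    ∃ c : ℝ, 0 < c ∧ ∀ (p : ℕ), 2 < p → ∀ (N : ℝ → ℕ) (K : ℕ) (C : ℝ), C < p * c →
      (∀ s : ℝ, 0 < s → s ∉ Crit ℓ → N s ≤ K) →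
      (∀ s t : ℝ, 0 < s → s ≤ t → (∀ x ∈ Icc s t, x ∉ Crit ℓ) → N s = N t) →
      (∀ s : ℝ, 0 < s → s ∉ Crit ℓ → p * s ∉ Crit ℓ → N s ≤ N (p * s)) →
      (∀ α β : ℝ, 0 < α → α < β → (∀ x ∈ Ioo α β, x / p ∉ Crit ℓ) →
        (∀ s ∈ Ioo α β, s ∉ Crit ℓ → N (s / p) = N s) → β - α ≤ C) → False := by
  classical
  have := Fintype.ofFinite ι
  obtain ⟨c, hc, hgap⟩ := gap_lemma ℓ hℓ Finset.univ 1 one_pos
  refine ⟨c, hc, fun p hp3 N K C hpc hK hconst hsmith hwin => ?_⟩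
  have hp0 : (0 : ℝ) < p := by
    have : 0 < p := by omega
    exact_mod_cast this
  have hp1 : (1 : ℝ) < p := by
    have : 1 < p := by omega
    exact_mod_cast this
  -- regular values exist
  have hreg : ∃ s : ℝ, 0 < s ∧ s ∉ Crit ℓ := by
    obtain ⟨y, hy1, hy2, hy3⟩ := hgap 1
    refine ⟨y + c / 2, by linarith, ?_⟩
    rintro ⟨i, m, _, h⟩
    exact hy3 (y + c / 2) ⟨by linarith, by linarith⟩ i (Finset.mem_univ i) m h
  -- maximal value
  let P : ℕ → Prop := fun n => ∃ s : ℝ, 0 < s ∧ s ∉ Crit ℓ ∧ N s = n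
  have hPbdd : ∀ n, P n → n ≤ K := by
    rintro n ⟨s, hs0, hs, rfl⟩
    exact hK s hs0 hs
  obtain ⟨s₁, hs₁0, hs₁⟩ := hreg
  have hPne : P (N s₁) := ⟨s₁, hs₁0, hs₁, rfl⟩
  obtain ⟨Nmax, hNmax, hmax⟩ : ∃ n, P n ∧ ∀ m, P m → m ≤ n :=
    ⟨Nat.findGreatest P K, Nat.findGreatest_spec (hPbdd _ hPne) hPne,
      fun m hm => Nat.le_findGreatest (hPbdd m hm) hm⟩
  obtain ⟨s₀, hs₀0, hs₀, hNs₀⟩ := hNmax
  have hle : ∀ s : ℝ, 0 < s → s ∉ Crit ℓ → N s ≤ Nmax := fun s h0 h => hmax _ ⟨s, h0, h, rfl⟩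
  -- a critical-free neighbourhood
  obtain ⟨e, he, hball⟩ := Metric.eventually_nhds_iff.mp
    ((eventually_not_crit ℓ hℓ hs₀0 hs₀).and (lt_mem_nhds hs₀0))
  set t := s₀ - e / 2 with ht
  have htin : ∀ x ∈ Icc t (t + e / 2 + e / 4), x ∉ Crit ℓ ∧ 0 < x := by
    intro x hx
    have h1 : dist x s₀ < e := by
      rw [Real.dist_eq, abs_lt]
      constructor
      · have := hx.1; rw [ht] at this; linarith
      · have := hx.2; rw [ht] at this; linarith
    exact hball h1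
  have ht0 : 0 < t := (htin t ⟨le_refl _, by linarith⟩).2
  have hNt : ∀ x ∈ Ioo t (t + e / 2), N x = Nmax := by
    intro x hx
    have h1 : x ≤ s₀ := by have := hx.2; rw [ht] at this; linarith
    rw [← hNs₀]
    apply hconst x s₀ (by linarith [hx.1]) h1
    intro y hy
    apply (htin y ⟨by linarith [hx.1, hy.1], ?_⟩).1
    have := hy.2
    rw [ht]; linarith
  -- blow up
  have hpow : ∀ j : ℕ, ∀ x ∈ Ioo ((p : ℝ) ^ j * t) ((p : ℝ) ^ j * (t + e / 2)),
      x ∉ Crit ℓ → N x = Nmax := by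
    intro j
    induction j with
    | zero => intro x hx _; exact hNt x (by simpa using hx)
    | succ j ih =>
      intro x hx hxc
      have hx0 : 0 < x := lt_trans (by positivity) hx.1
      have hxp : x / p ∉ Crit ℓ := by
        intro h
        apply hxc
        have := mul_mem_crit (p := p) (by omega) h
        rwa [mul_div_cancel₀ x hp0.ne'] at this
      have h1 : N (x / p) = Nmax := by
        apply ih _ _ hxp
        constructor
        · rw [lt_div_iff₀ hp0]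
          have := hx.1
          rw [pow_succ] at this
          linarith
        · rw [div_lt_iff₀ hp0]
          have := hx.2
          rw [pow_succ] at this
          linarith
      have h2 : N (x / p) ≤ N (p * (x / p)) := by
        apply hsmith (x / p) (by positivity) hxp
        rwa [mul_div_cancel₀ x hp0.ne']
      rw [mul_div_cancel₀ x hp0.ne', h1] at h2
      exact le_antisymm (hle x hx0 hxc) h2
  -- a long interval
  obtain ⟨j, hj⟩ : ∃ j : ℕ, 2 / e < (p : ℝ) ^ j := pow_unbounded_of_one_lt _ hp1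
  have hlong : 1 < (p : ℝ) ^ j * (e / 2) := by
    rw [div_lt_iff₀ he] at hj
    linarith
  obtain ⟨y, hy1, hy2, hy3⟩ := hgap ((p : ℝ) ^ j * t)
  have hy0 : 0 < y := lt_of_lt_of_le (by positivity) hy1
  have hcontra := hwin (p * y) (p * (y + c)) (by positivity)
    (mul_lt_mul_of_pos_left (by linarith) hp0) ?_ ?_
  · have : (p : ℝ) * (y + c) - p * y = p * c := by ring
    linarith
  · rintro x hx ⟨i, m, _, h⟩
    refine hy3 (x / p) ⟨?_, ?_⟩ i (Finset.mem_univ i) m h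
    · rw [lt_div_iff₀ hp0]; linarith [hx.1]
    · rw [div_lt_iff₀ hp0]; linarith [hx.2]
  · intro s hs hsc
    have hsp : s / p ∈ Ioo y (y + c) := by
      constructor
      · rw [lt_div_iff₀ hp0]; linarith [hs.1]
      · rw [div_lt_iff₀ hp0]; linarith [hs.2]
    have hspc : s / p ∉ Crit ℓ := by
      rintro ⟨i, m, _, h⟩
      exact hy3 (s / p) hsp i (Finset.mem_univ i) m h
    have h1 : N (s / p) = Nmax := by
      apply hpow j _ _ hspc
      constructor
      · linarith [hsp.1]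
      · have : (p : ℝ) ^ j * (t + e / 2) = (p : ℝ) ^ j * t + (p : ℝ) ^ j * (e / 2) := by ring
        linarith [hsp.2]
    have hs0 : 0 < s := lt_trans (by positivity) hs.1
    have h2 : N (s / p) ≤ N (p * (s / p)) := by
      apply hsmith (s / p) (by positivity) hspc
      rwa [mul_div_cancel₀ s hp0.ne']
    rw [mul_div_cancel₀ s hp0.ne', h1] at h2
    rw [h1]
    exact le_antisymm h2 (hle s hs0 hsc)

open T695

/-- **The algebraic endgame for one prime**: `PSysC` is impossible for one prime `p ≥ P`, where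
`P` only depends on the lengths and on the constants. -/
theorem tightEnd1 {ι : Type} [Finite ι] (ℓ : ι → ℝ) (hℓ : ∀ i, 0 < ℓ i) (K : ℕ)
    (B0 B1 : ℝ) : ∃ P : ℕ, ∀ p : ℕ, p.Prime → P ≤ p → ∀ (k : Type) [Field k],
      PSysC k p (Crit ℓ) K B0 B1 → False := by
  have hf := crit_finite ℓ hℓ
  obtain ⟨c, hc, hend⟩ := endgame1 ℓ hℓ
  set C : ℝ := max B0 0 + 3 + (2 * K + 3) * (max B1 0 + 1) with hC
  refine ⟨max 3 (⌊C / c⌋₊ + 1), fun p hp hP k _ S => ?_⟩
  have hp3 : 2 < p := lt_of_lt_of_le (by norm_num) ((le_max_left _ _).trans hP)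
  have hpc : C < p * c := by
    have h1 : (⌊C / c⌋₊ + 1 : ℕ) ≤ p := (le_max_right _ _).trans hP
    have h2 : C / c < ⌊C / c⌋₊ + 1 := Nat.lt_floor_add_one _
    have h3 : ((⌊C / c⌋₊ : ℝ) + 1) ≤ p := by exact_mod_cast h1
    have h4 : C / c < p := lt_of_lt_of_le h2 h3
    rwa [div_lt_iff₀ hc] at h4
  have hp0 : 0 < p := hp.pos
  have hp' : (0 : ℝ) < p := by exact_mod_cast hp0
  refine hend p hp3 (fun t => Rinf k (S.rH t) S.q) K C hpc ?_ ?_ ?_ ?_
  · intro s hs hs'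
    exact PSysC.rinf_le hs hs'
  · intro s t hs hst h
    exact PSysC.rinf_const hs hst h
  · intro s hs hs' hps
    have h1 := (S.star hp0 (mul_pos hp' hs) hps).1
    rw [mul_div_cancel_left₀ s hp'.ne'] at h1
    exact h1
  · intro α β hα hαβ h1 h2
    refine PSysC.window_short (S := S) hf hp0 hα ?_ h1
    intro t ht ht'
    exact (S.star hp0 (hα.trans ht.1) ht').2 (h2 t ht ht').ge

/-- **The algebraic endgame for an unbounded set `Q` of primes.** -/
theorem tightEndQ {ι : Type} [Finite ι] (ℓ : ι → ℝ) (hℓ : ∀ i, 0 < ℓ i) (K : ℕ)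
    (B0 B1 : ℝ) (Q : ℕ → Prop) (hQ : ∀ N : ℕ, ∃ p, N < p ∧ p.Prime ∧ Q p)
    (hS : ∀ p : ℕ, p.Prime → 2 < p → Q p → ∃ (k : Type) (_ : Field k),
      Nonempty (PSysC k p (Crit ℓ) K B0 B1)) : False := by
  obtain ⟨P, hP⟩ := tightEnd1 ℓ hℓ K B0 B1
  obtain ⟨p, h1, h2, h3⟩ := hQ (max 2 P)
  obtain ⟨k, fk, ⟨S⟩⟩ := hS p h2 (lt_of_le_of_lt (le_max_left _ _) h1) h3
  exact hP p h2 ((le_max_right _ _).trans h1.le) k S

end Vale.Agent.P216.B609
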