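import Vale.Agent.P216.MV337.Caps

/-!
# Block B45 (R2): caps with a self map of degree `-1`
-/

open Set

namespace Vale.Agent.P216.B609

open Vale.Agent.P216.MV337

/-- Caps with a self map `f` which reflects the last coordinate of the cube and commutes with the
nullhomotopies. -/
structure FCaps (m : ℕ) (M : Type) [TopologicalSpace M] (x₀ : M) extends Caps (m + 1) M x₀ where
  f : C(M, M)
  f_x₀ : f x₀ = x₀
  f_p : ∀ x ∈ Dp, f x ∈ Dp
  f_m : ∀ x ∈ Dm, f x ∈ Dm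
  φ_f : ∀ x ∈ Dp, φ (f x) = Function.update (φ x) (Fin.last m) (1 - φ x (Fin.last m))
  Hp_f : ∀ x ∈ Dp, ∀ s ∈ Icc (0:ℝ) 1, f (Hp (x, s)) = Hp (f x, s)
  Hm_f : ∀ x ∈ Dm, ∀ s ∈ Icc (0:ℝ) 1, f (Hm (x, s)) = Hm (f x, s)

end Vale.Agent.P216.B609
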