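import Vale.Agent.P216.DV706.PInstC
import Vale.Agent.P216.AS.MVSets
import Vale.Agent.P216.AS.Bridge
import Vale.Agent.P216.H41.Fin3

/-!
# P216-D: the cohomology of a compact manifold is finite

`finM_of_chartedSpace`: `FinM M` for every compact metric space `M` with charts in a finite
dimensional normed space.  The rank of `H(K') → H(K)` is finite for compact sets `K ⊆ interior K'`
(one chart: `H41.finrank_chart`; several charts: Mayer-Vietoris for three nested levels).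
-/

open Set Topology

namespace Vale.Agent.P216.B609

open AS B64

section Abs

variable {E : Type} [MetricSpace E] {k : Type} [Field k] {I : Type} {a : I → E → E} {χ : I → k}

/-- **Thick Mayer-Vietoris inequality**, absolute version. -/
theorem mv_rank_res {A₀ A₁ A₂ B₀ B₁ B₂ : Set E} (h : Tw a χ (A₀ ∪ B₀))
    (cA₀ : IsCompact A₀) (cB₀ : IsCompact B₀) (cA₂ : IsCompact A₂) (cB₂ : IsCompact B₂)
    (iA₀ : Inv a A₀) (iB₀ : Inv a B₀) (iA₁ : Inv a A₁) (iB₁ : Inv a B₁) (iA₂ : Inv a A₂)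
    (iB₂ : Inv a B₂) (a₁ : A₁ ⊆ A₀) (b₁ : B₁ ⊆ B₀) (a₂ : A₂ ⊆ A₁) (b₂ : B₂ ⊆ B₁) (n : ℕ) :
    LinearMap.rank (res (union_subset_union (a₂.trans a₁) (b₂.trans b₁)) (n + 1) :
        Ha a χ (A₀ ∪ B₀) (n + 1) →ₗ[k] Ha a χ (A₂ ∪ B₂) (n + 1)) ≤
      LinearMap.rank (res a₁ (n + 1) : Ha a χ A₀ (n + 1) →ₗ[k] Ha a χ A₁ (n + 1)) +
      LinearMap.rank (res b₁ (n + 1) : Ha a χ B₀ (n + 1) →ₗ[k] Ha a χ B₁ (n + 1)) +
      LinearMap.rank (res (inter_subset_inter a₂ b₂) n :
        Ha a χ (A₁ ∩ B₁) n →ₗ[k] Ha a χ (A₂ ∩ B₂) n) := by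
  have key1 : ∀ (C : Set E) (_ : C = ∅) (X Y : Set E) (hXY : Y ⊆ X) (m : ℕ),
      LinearMap.rank (resR hXY (subset_refl C) m : Hr a χ X C m →ₗ[k] Hr a χ Y C m) =
        LinearMap.rank (res hXY m : Ha a χ X m →ₗ[k] Ha a χ Y m) := by
    intro C hC X Y hXY m
    subst hC
    exact (rank_res_eq hXY m).symm
  have hu := mv_rank_sets (k := k) (χ := χ) (A₀' := ∅) (B₀' := ∅) (A₁' := ∅) (B₁' := ∅)
    (A₂' := ∅) (B₂' := ∅) h cA₀ cB₀ isCompact_empty isCompact_empty cA₂ cB₂ isCompact_empty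
    isCompact_empty iA₀ iB₀ inv_empty inv_empty iA₁ iB₁ inv_empty inv_empty iA₂ iB₂
    inv_empty inv_empty (empty_subset _) (empty_subset _) (empty_subset _) (empty_subset _)
    (empty_subset _) (empty_subset _) a₁ (subset_refl _) b₁ (subset_refl _) a₂ (subset_refl _) b₂
    (subset_refl _) n
  rw [← key1 (∅ ∪ ∅) (union_self _), ← key1 ∅ rfl A₀ A₁, ← key1 ∅ rfl B₀ B₁,
    ← key1 (∅ ∩ ∅) (inter_self _)]
  exact hu

/-- Degree `0`. -/
theorem mv_rank_res_zero {A₀ A₁ B₀ B₁ : Set E} (h : Tw a χ (A₀ ∪ B₀))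
    (cA₁ : IsCompact A₁) (cB₁ : IsCompact B₁)
    (iA₀ : Inv a A₀) (iB₀ : Inv a B₀) (iA₁ : Inv a A₁) (iB₁ : Inv a B₁)
    (a₁ : A₁ ⊆ A₀) (b₁ : B₁ ⊆ B₀) :
    LinearMap.rank (res (union_subset_union a₁ b₁) 0 :
        Ha a χ (A₀ ∪ B₀) 0 →ₗ[k] Ha a χ (A₁ ∪ B₁) 0) ≤
      LinearMap.rank (res a₁ 0 : Ha a χ A₀ 0 →ₗ[k] Ha a χ A₁ 0) +
      LinearMap.rank (res b₁ 0 : Ha a χ B₀ 0 →ₗ[k] Ha a χ B₁ 0) := by
  have key1 : ∀ (C : Set E) (_ : C = ∅) (X Y : Set E) (hXY : Y ⊆ X) (m : ℕ),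
      LinearMap.rank (resR hXY (subset_refl C) m : Hr a χ X C m →ₗ[k] Hr a χ Y C m) =
        LinearMap.rank (res hXY m : Ha a χ X m →ₗ[k] Ha a χ Y m) := by
    intro C hC X Y hXY m
    subst hC
    exact (rank_res_eq hXY m).symm
  have hu := mv_rank_sets_zero (k := k) (χ := χ) (A₀' := ∅) (B₀' := ∅) (A₁' := ∅) (B₁' := ∅)
    h cA₁ cB₁ isCompact_empty isCompact_empty iA₀ iB₀ iA₁ iB₁ inv_empty inv_empty
    (empty_subset _) (empty_subset _) a₁ (subset_refl _) b₁ (subset_refl _)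
  rw [← key1 (∅ ∪ ∅) (union_self _), ← key1 ∅ rfl A₀ A₁, ← key1 ∅ rfl B₀ B₁]
  exact hu

end Abs

section Man

variable {M : Type} [MetricSpace M] (k : Type) [Field k]

/-- the restriction map, no symmetries -/
abbrev rs1 {X Y : Set M} (h : Y ⊆ X) (q : ℕ) :
    Ha (fun _ : Unit => (id : M → M)) (fun _ : Unit => (1 : k)) X q →ₗ[k]
      Ha (fun _ : Unit => (id : M → M)) (fun _ : Unit => (1 : k)) Y q := res h q

/-- The restriction maps from the neighbourhoods of `K` have finite rank, and are zero in large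
degrees. -/
def FR (K : Set M) : Prop := ∀ K' : Set M, IsCompact K' → ∀ h : K ⊆ K', K ⊆ interior K' →
  ∃ N : ℕ, ∀ q, LinearMap.rank (rs1 k h q) < Cardinal.aleph0 ∧
    (N ≤ q → LinearMap.rank (rs1 k h q) = 0)

variable {k}

theorem fr_chart {V : Type} [NormedAddCommGroup V] [NormedSpace ℝ V] [FiniteDimensional ℝ V]
    (c : OpenPartialHomeomorph M V) {K : Set M} (hK : IsCompact K) (hc : K ⊆ c.source) :
    FR k K := by
  intro K' hK' h hi
  have hO : IsOpen (c.target ∩ c.symm ⁻¹' (interior K')) :=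
    c.isOpen_inter_preimage_symm isOpen_interior
  have hcK : IsCompact (c '' K) := hK.image_of_continuousOn (c.continuousOn.mono hc)
  have hsub : c '' K ⊆ c.target ∩ c.symm ⁻¹' (interior K') := by
    rintro _ ⟨x, hx, rfl⟩
    refine ⟨c.map_source (hc hx), ?_⟩
    rw [mem_preimage, c.left_inv (hc hx)]
    exact hi hx
  obtain ⟨ε, hε, hε'⟩ := hcK.exists_cthickening_subset_open hO hsub
  have hth : ∀ x ∈ K, ∀ v, dist v (c x) ≤ ε → v ∈ c.target ∩ c.symm ⁻¹' (interior K') :=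
    fun x hx v hv => hε' (Metric.mem_cthickening_of_dist_le v (c x) ε _ ⟨x, hx, rfl⟩ hv)
  obtain ⟨N, C, hC0, hC⟩ := H41.finrank_chart (X := K) (A := ∅) (X' := K') (A' := ∅) c c.symm hK
    (empty_subset _) (c.continuousOn.mono hc) hε
    (c.continuousOn_symm.mono fun v ⟨x, hx, hv⟩ => (hth x hx v hv).1)
    (fun x hx => c.left_inv (hc hx))
    (fun x hx v hv => interior_subset (hth x hx v hv).2) (fun x hx => absurd hx (notMem_empty _))
  have key : ∀ q, LinearMap.rank (rs1 k h q) ≤ C q := fun q => by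
    rw [rs1, rank_res h]
    exact hC (1 : k) q
  refine ⟨N, fun q => ⟨(key q).trans_lt (Cardinal.natCast_lt_aleph0), fun hq => ?_⟩⟩
  have h1 := key q
  rw [hC0 q hq, Nat.cast_zero] at h1
  exact le_antisymm h1 zero_le

theorem rank_le_of_res {X Y Z : Set M} (h₁ : Y ⊆ X) (h₂ : Z ⊆ Y) (q : ℕ) :
    LinearMap.rank (rs1 k (h₂.trans h₁) q) ≤ LinearMap.rank (rs1 k h₂ q) := by
  have : rs1 k (h₂.trans h₁) q = (rs1 k h₂ q) ∘ₗ (rs1 k h₁ q) :=
    LinearMap.ext fun x => (res_res h₁ h₂ x).symm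
  rw [this]
  exact LinearMap.rank_comp_le_left _ _

omit [MetricSpace M] in
theorem inv1 (X : Set M) : AS.Inv (fun _ : Unit => (id : M → M)) X := fun _ _ => Iff.rfl

theorem tw1 (h2 : (2 : k) ≠ 0) (X : Set M) :
    Tw (fun _ : Unit => (id : M → M)) (fun _ : Unit => (1 : k)) X where
  two := h2
  uniq _ _ := rfl
  inv _ _ _ := rfl
  sq _ := one_mul 1
  uc _ ε hε := ⟨ε, hε, fun _ _ _ _ h => h⟩

theorem fr_union [LocallyCompactSpace M] (h2 : (2 : k) ≠ 0) {U V : Set M} (hU : IsOpen U)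
    (hV : IsOpen V) (fU : ∀ K ⊆ U, IsCompact K → FR k K) (fV : ∀ K ⊆ V, IsCompact K → FR k K)
    {K : Set M} (hK : IsCompact K) (hKUV : K ⊆ U ∪ V) : FR k K := by
  intro K' hK' h hi
  obtain ⟨A₂, B₂, cA₂, cB₂, hA₂, hB₂, rfl⟩ := hK.binary_compact_cover hU hV hKUV
  have hA₂' : A₂ ⊆ U ∩ interior K' := subset_inter hA₂ (subset_union_left.trans hi)
  have hB₂' : B₂ ⊆ V ∩ interior K' := subset_inter hB₂ (subset_union_right.trans hi)
  obtain ⟨A₁, cA₁, a₂, hA₁⟩ := exists_compact_between cA₂ (hU.inter isOpen_interior) hA₂'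
  obtain ⟨B₁, cB₁, b₂, hB₁⟩ := exists_compact_between cB₂ (hV.inter isOpen_interior) hB₂'
  obtain ⟨A₀, cA₀, a₁, hA₀⟩ := exists_compact_between cA₁ (hU.inter isOpen_interior) hA₁
  obtain ⟨B₀, cB₀, b₁, hB₀⟩ := exists_compact_between cB₁ (hV.inter isOpen_interior) hB₁
  have a₁' := a₁.trans interior_subset
  have b₁' := b₁.trans interior_subset
  have a₂' := a₂.trans interior_subset
  have b₂' := b₂.trans interior_subset
  obtain ⟨NA, hNA⟩ := fU A₁ (hA₁.trans inter_subset_left) cA₁ A₀ cA₀ a₁' a₁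
  obtain ⟨NB, hNB⟩ := fV B₁ (hB₁.trans inter_subset_left) cB₁ B₀ cB₀ b₁' b₁
  obtain ⟨NI, hNI⟩ := fV (A₂ ∩ B₂) (inter_subset_right.trans hB₂) (cA₂.inter cB₂) (A₁ ∩ B₁)
    (cA₁.inter cB₁) (inter_subset_inter a₂' b₂')
    (by rw [interior_inter]; exact inter_subset_inter a₂ b₂)
  have hsub : A₀ ∪ B₀ ⊆ K' := union_subset
    (hA₀.trans (inter_subset_right.trans interior_subset))
    (hB₀.trans (inter_subset_right.trans interior_subset))
  refine ⟨NA + NB + NI + 1, fun q => ?_⟩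
  have hle : LinearMap.rank (rs1 k h q) ≤
      LinearMap.rank (rs1 k (union_subset_union (a₂'.trans a₁') (b₂'.trans b₁')) q) :=
    rank_le_of_res hsub _ q
  cases q with
  | zero =>
    have h1 := mv_rank_res_zero (k := k) (χ := fun _ : Unit => (1 : k))
      (a := fun _ : Unit => (id : M → M)) (tw1 h2 (A₀ ∪ B₀)) cA₁ cB₁ (inv1 _) (inv1 _)
      (inv1 _) (inv1 _) a₁' b₁'
    have h3 : LinearMap.rank (rs1 k h 0) ≤
        LinearMap.rank (rs1 k (union_subset_union a₁' b₁') 0) := by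
      refine hle.trans ?_
      have : rs1 k (union_subset_union (a₂'.trans a₁') (b₂'.trans b₁')) 0 =
          (rs1 k (union_subset_union a₂' b₂') 0) ∘ₗ (rs1 k (union_subset_union a₁' b₁') 0) :=
        LinearMap.ext fun x => (res_res (union_subset_union a₁' b₁')
          (union_subset_union a₂' b₂') x).symm
      rw [this]
      exact LinearMap.rank_comp_le_right _ _
    refine ⟨(h3.trans h1).trans_lt (Cardinal.add_lt_aleph0 (hNA 0).1 (hNB 0).1), fun hq => ?_⟩
    omega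
  | succ n =>
    have h1 := mv_rank_res (k := k) (χ := fun _ : Unit => (1 : k))
      (a := fun _ : Unit => (id : M → M)) (tw1 h2 (A₀ ∪ B₀)) cA₀ cB₀ cA₂ cB₂ (inv1 _) (inv1 _)
      (inv1 _) (inv1 _) (inv1 _) (inv1 _) a₁' b₁' a₂' b₂' n
    refine ⟨(hle.trans h1).trans_lt (Cardinal.add_lt_aleph0 (Cardinal.add_lt_aleph0
      (hNA _).1 (hNB _).1) (hNI _).1), fun hq => ?_⟩
    have e1 := (hNA (n + 1)).2 (by omega)
    have e2 := (hNB (n + 1)).2 (by omega)
    have e3 := (hNI n).2 (by omega)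
    refine le_antisymm ((hle.trans h1).trans ?_) zero_le
    rw [show LinearMap.rank (res a₁' (n + 1) : Ha (fun _ : Unit => (id : M → M))
      (fun _ : Unit => (1 : k)) A₀ (n + 1) →ₗ[k] _) = 0 from e1,
      show LinearMap.rank (res b₁' (n + 1) : Ha (fun _ : Unit => (id : M → M))
      (fun _ : Unit => (1 : k)) B₀ (n + 1) →ₗ[k] _) = 0 from e2,
      show LinearMap.rank (res (inter_subset_inter a₂' b₂') n : Ha (fun _ : Unit => (id : M → M))
      (fun _ : Unit => (1 : k)) (A₁ ∩ B₁) n →ₗ[k] _) = 0 from e3]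
    simp

variable (V : Type) [NormedAddCommGroup V] [NormedSpace ℝ V] [FiniteDimensional ℝ V]

theorem fr_all [Nonempty M] [ChartedSpace V M] (h2 : (2 : k) ≠ 0) (s : Finset M) :
    ∀ K : Set M, K ⊆ (⋃ x ∈ s, (chartAt V x).source) → IsCompact K → FR k K := by
  classical
  have : LocallyCompactSpace M := ChartedSpace.locallyCompactSpace V M
  induction s using Finset.induction_on with
  | empty =>
    intro K hK cK
    have hK0 : K = ∅ := by
      rw [← subset_empty_iff]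
      refine hK.trans ?_
      simp
    subst hK0
    obtain ⟨x⟩ := ‹Nonempty M›
    exact fr_chart (chartAt V x) isCompact_empty (empty_subset _)
  | insert x s hx ih =>
    intro K hK cK
    refine fr_union h2 (isOpen_biUnion fun y _ => (chartAt V y).open_source)
      (chartAt V x).open_source (K := K) ih (fun L hL cL => fr_chart (chartAt V x) cL hL) cK ?_
    rw [Finset.set_biUnion_insert] at hK
    rwa [union_comm]

/-- **The cohomology of a compact manifold is finite** (also for topological manifolds). -/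
theorem finM_of_chartedSpace [CompactSpace M] [ChartedSpace V M] : FinM M := by
  classical
  intro k _ h2
  have key : (∀ q, Module.Finite k (Low.Hu k (univ : Set M) q)) ∧
      ∃ N, ∀ q ≥ N, Subsingleton (Low.Hu k (univ : Set M) q) := by
    by_cases hM : Nonempty M
    · obtain ⟨s, hs⟩ : ∃ s : Finset M, (univ : Set M) ⊆ ⋃ x ∈ s, (chartAt V x).source := by
        obtain ⟨s, hs⟩ := isCompact_univ.elim_finite_subcover (fun x : M => (chartAt V x).source)
          (fun x => (chartAt V x).open_source) fun x _ => mem_iUnion.2 ⟨x, mem_chart_source V x⟩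
        exact ⟨s, hs⟩
      obtain ⟨N, hN⟩ := fr_all (k := k) V h2 s univ hs isCompact_univ univ isCompact_univ
        (subset_refl _) (by rw [interior_univ])
      have e : ∀ q, LinearMap.rank (rs1 k (subset_refl (univ : Set M)) q) =
          Module.rank k (Low.Hu k (univ : Set M) q) := by
        intro q
        have : rs1 k (subset_refl (univ : Set M)) q = LinearMap.id :=
          LinearMap.ext fun x => Hinc_refl _ _ x
        rw [this]
        unfold LinearMap.rank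
        rw [LinearMap.range_id, rank_top]
      refine ⟨fun q => ?_, N, fun q hq => ?_⟩
      · rw [← Module.rank_lt_aleph0_iff, ← e q]
        exact (hN q).1
      · rw [← rank_zero_iff (R := k), ← e q]
        exact (hN q).2 hq
    · have hM' : IsEmpty M := not_nonempty_iff.1 hM
      have hs : ∀ q, Subsingleton (Low.Hu k (univ : Set M) q) := fun q => by
        refine ⟨fun x y => ?_⟩
        obtain ⟨f, hf, rfl⟩ := H.exists_mk x
        obtain ⟨g, hg, rfl⟩ := H.exists_mk y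
        have : f = g := funext fun v => isEmptyElim (v 0)
        subst this
        rfl
      exact ⟨fun q => by have := hs q; infer_instance, 0, fun q _ => hs q⟩
  obtain ⟨h4, N, h5⟩ := key
  refine ⟨fun q => ?_, N, fun q hq => ?_⟩
  · obtain ⟨e', he'⟩ := DV706.hinc_bijective k (univ : Set M) q
    have := h4 q
    exact Module.Finite.equiv (LinearEquiv.ofBijective e' he').symm
  · obtain ⟨e', he'⟩ := DV706.hinc_bijective k (univ : Set M) q
    have := h5 q hq
    exact he'.1.subsingleton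

end Man

end Vale.Agent.P216.B609
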