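import Vale.Agent.P216.DV706.PInstC
import Vale.Agent.P216.B609.EndQ
import Vale.Agent.P216.B609.FinMan

/-!
# P216-D (manifolds whose cohomology ring is generated by one element): contract, goals, skeleton

* `XGenD M q e B m k`: the topology of the free loop space for one field `k = ZMod p`; instead of
  the signs of the reversal: the weights of the power map `γ ↦ γ (m ·)`.
* `LiftD`: lifts to the circle theory from the weights (block LIFTW).
* `XDGoal M Q q e`: the topology for all primes `p` with `Q p` (block GEN).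
* `main_D`: the main theorem from `LiftD` and `XDGoal`.
-/

open Set Topology Bundle Manifold
open scoped ContDiff
open Vale.Agent.P216.H494 Vale.Agent.P216.H288

namespace Vale.Agent.P216.B609

open AS L250 GM B64 DV706

/-- The power map from the sublevel `t` to the sublevel `m t`. -/
theorem umap_iter {M : Type} [MetricSpace M] (m : ℕ) (t : ℝ) :
    UMap (XL M t) (XL M (m * t)) (L250.iter m : LM M → LM M) := by
  refine ⟨fun g hg => ?_, fun e => e.elim, fun ε hε => ?_⟩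
  · have h : (m : ℝ) * max t 0 = max (m * t) 0 := by
      rw [mul_max_of_nonneg _ _ (Nat.cast_nonneg m), mul_zero]
    change L250.iter m g ∈ XE M (max (m * t) 0)
    rw [← h]
    exact iter_mem hg m
  · refine ⟨ε, hε, fun g _ g' _ h => lt_of_le_of_lt ?_ h⟩
    exact (dist_le_iff dist_nonneg).2 fun s => by simpa using dist_fn_le g g' _

/-- The weight of the power map `γ ↦ γ (m ·)` in degree `n`: `m ^ (-n / 2)` (rounded towards
`0` for `q = 1`, away from `0` for `q = 0`). -/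
def wtD (k : Type) [Field k] (q m n : ℕ) : k := ((m : k)⁻¹) ^ ((n + 1 - q) / 2)

/-- **The contract.** In every degree the stable cohomology of the sublevels `XL M t` is a line
spanned by `g n t` (or zero). `q = 1`: classes of odd degrees are to be lifted (even dimensional
`M`), `q = 0`: classes of even degrees (odd dimensional spheres). -/
structure XGenD (M : Type) [MetricSpace M] (q : ℕ) (e : ℕ → ℕ) (B : ℝ) (m : ℕ) (k : Type)
    [Field k] where
  g : ∀ (n : ℕ) (t : ℝ), HU k (XL M t) n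
  res_g : ∀ n s t (h : s ≤ t), hres k (XL_mono h) n (g n t) = g n s
  span : ∀ n t, 0 ≤ t → ∀ (h : XL M t ⊆ XL M (t + B)) (z : HU k (XL M (t + B)) n),
    ∃ c : k, hres k h n z = c • g n t
  /-- weights of the power map -/
  wt : ∀ n t, hpull k (umap_iter m t) n (g n (m * t)) = wtD k q m n • g n t
  e_mono : StrictMono e
  e_par : ∀ i, e i % 2 = q
  e_ge : ∀ i, 3 ≤ e i
  /-- no class just below the degree `e i` -/
  gap : ∀ i t t', g (e i) t ≠ 0 → g (e i - 1) t' = 0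
  birth0 : ∀ t, B ≤ t → g (e 0) t ≠ 0
  birth : ∀ i t, 0 ≤ t → g (e i) t ≠ 0 → g (e (i + 1)) (t + B) ≠ 0

/-- **LIFTW**: if `m ≠ 0, 1` in `ZMod p`, all global classes of parity `q` lift to the circle
theory. -/
def LiftD : Prop := ∀ {M : Type} [MetricSpace M] [CompactSpace M] (G : GeoList M)
  (hD : DescentStmt (Hol.triv : Hol M) G) (p : ℕ) [hpp : Fact p.Prime] (h2 : 2 < p)
  (hf : RotS.FinAt (S0 G hD) (ZMod p)) {q : ℕ} {e : ℕ → ℕ} {B : ℝ} {m : ℕ}
  (_ : XGenD M q e B m (ZMod p)), q < 2 → 0 < B → (m : ZMod p) ≠ 0 → (m : ZMod p) ≠ 1 →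
  ∀ n, n % 2 = q → Function.Surjective ((T0 G hD (ZMod p) hpp.out h2 hf).πi n)

/-- **GEN**: the topology of the free loop space, for the primes `p` with `Q p`; the power `m`
may depend on `p`, the constant `B` does not. -/
def XDGoal (M : Type) [MetricSpace M] (Q : ℕ → Prop) (q : ℕ) (e : ℕ → ℕ) : Prop :=
  ∀ ρ : ℝ, 0 < ρ → LS.UniqSeg M ρ → ∃ B : ℝ, 0 < B ∧ ∀ p : ℕ, ∀ _ : Fact p.Prime, 2 < p → Q p →
    ∃ m : ℕ, (m : ZMod p) ≠ 0 ∧ (m : ZMod p) ≠ 1 ∧ Nonempty (XGenD M q e B m (ZMod p))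

/-- **The instance** of `PSysC` (proved in `B609/PInstD.lean`). -/
def PDGoal : Prop := LiftD → ∀ (M : Type) [MetricSpace M] [CompactSpace M] (ρ : ℝ), 0 < ρ →
  LS.UniqSeg M ρ → GM.LOC M → FinM M → ∀ G : GeoList M, ∀ (Q : ℕ → Prop) (q : ℕ) (e : ℕ → ℕ)
  (B : ℝ), q < 2 → 0 < B → (∀ p : ℕ, ∀ _ : Fact p.Prime, 2 < p → Q p →
    ∃ m : ℕ, (m : ZMod p) ≠ 0 ∧ (m : ZMod p) ≠ 1 ∧ Nonempty (XGenD M q e B m (ZMod p))) →
  ∃ (K : ℕ) (B0 B1 : ℝ), ∀ p : ℕ, p.Prime → 2 < p → Q p → ∃ (k : Type) (_ : Field k),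
    Nonempty (T695.PSysC k p (AS.Crit G.ℓ) K B0 B1)

/-- **The skeleton of the main theorem of P216-D.** `Q`: an unbounded set of primes. -/
theorem main_D (hL : LiftD) (hP : PDGoal)
    {E : Type} [NormedAddCommGroup E] [NormedSpace ℝ E] [FiniteDimensional ℝ E]
    {M : Type} [MetricSpace M] [CompactSpace M] [ChartedSpace E M] [IsManifold 𝓘(ℝ, E) ∞ M]
    [RiemannianBundle (fun x : M => TangentSpace 𝓘(ℝ, E) x)]
    [IsContMDiffRiemannianBundle 𝓘(ℝ, E) ∞ E (fun x : M => TangentSpace 𝓘(ℝ, E) x)]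
    [IsRiemannianManifold 𝓘(ℝ, E) M] [PreconnectedSpace M] (Q : ℕ → Prop)
    (hQ : ∀ N : ℕ, ∃ p, N < p ∧ p.Prime ∧ Q p) (q : ℕ) (hq : q < 2) (e : ℕ → ℕ)
    (hX : XDGoal M Q q e) : (primeClosedGeodesicImages M).Infinite := by
  intro hfin
  obtain ⟨ρ, hρ, hs, _⟩ := Geo.exists_uniqSeg E M
  obtain ⟨G⟩ := exists_geoList (nonBranching_of_riemannian (E := E) (M := M)) hfin
  have hLOC : GM.LOC M := H319.loc (E := E) hρ hs (H844.f4_M E M)
  obtain ⟨B, hB, hX'⟩ := hX ρ hρ hs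
  obtain ⟨K, B0, B1, h⟩ := hP hL M ρ hρ hs hLOC (finM_of_chartedSpace E) G Q q e B hq hB hX'
  have := G.fin
  exact tightEndQ G.ℓ G.ℓ_pos K B0 B1 Q hQ h

end Vale.Agent.P216.B609
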