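import Vale.Agent.P216.DV706.PInst
import Vale.Agent.P216.B633.PRho
import Vale.Agent.P216.B64.RhoDef
import Vale.Agent.P216.MV337.ToX
import Vale.Agent.P216.H539.StMoore

/-!
# Theorem B of P216 from the topology of the Moore-Lipschitz free loops
-/

open Set Topology Bundle Manifold
open scoped ContDiff
open Vale.Agent.P216.H494

namespace Vale.Agent.P216.B609

open B64

/-- The main theorem for `n ≥ 4`, from `XGoal` and `XRhoGoal`. -/
theorem main_X (hX : XGoal) (hX1 : XRhoGoal)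
    {E : Type} [NormedAddCommGroup E] [NormedSpace ℝ E] [FiniteDimensional ℝ E]
    {M : Type} [MetricSpace M] [CompactSpace M] [ChartedSpace E M] [IsManifold 𝓘(ℝ, E) ∞ M]
    [RiemannianBundle (fun x : M => TangentSpace 𝓘(ℝ, E) x)]
    [IsContMDiffRiemannianBundle 𝓘(ℝ, E) ∞ E (fun x : M => TangentSpace 𝓘(ℝ, E) x)]
    [IsRiemannianManifold 𝓘(ℝ, E) M] {n : ℕ} (hn : 4 ≤ n)
    (e : M ≃ₜ Sph n) : (primeClosedGeodesicImages M).Infinite :=
  main_all hX DV706.pGoal hX1 B633.pRhoGoal (E := E) hn e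

/-- `XGoal` from `FLGoal`. -/
theorem xGoal (hF : MV337.FLGoal) : XGoal := MV337.xGoal_of MR.stMoore hF

/-- The main theorem for `n ≥ 4`, `n ≠ 1` modulo `4`, from `FLGoal`. -/
theorem main_F (hF : MV337.FLGoal)
    {E : Type} [NormedAddCommGroup E] [NormedSpace ℝ E] [FiniteDimensional ℝ E]
    {M : Type} [MetricSpace M] [CompactSpace M] [ChartedSpace E M] [IsManifold 𝓘(ℝ, E) ∞ M]
    [RiemannianBundle (fun x : M => TangentSpace 𝓘(ℝ, E) x)]
    [IsContMDiffRiemannianBundle 𝓘(ℝ, E) ∞ E (fun x : M => TangentSpace 𝓘(ℝ, E) x)]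
    [IsRiemannianManifold 𝓘(ℝ, E) M] {n : ℕ} (hn : 4 ≤ n) (hn4 : n % 4 ≠ 1)
    (e : M ≃ₜ Sph n) : (primeClosedGeodesicImages M).Infinite :=
  main_of (xGoal hF) DV706.pGoal (E := E) hn hn4 e

end Vale.Agent.P216.B609
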