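import Vale.Agent.P216.B609.PInstD

/-!
# P216-D: the main theorem from `LiftD` and the topology of the free loop space
-/

open Set Topology Bundle Manifold
open scoped ContDiff

namespace Vale.Agent.P216.B609

/-- The main theorem of P216-D, from `LiftD` (block LIFTW) and `XDGoal` (block GEN); `Q` is an
unbounded set of primes. -/
theorem main_D_of (hL : LiftD)
    {E : Type} [NormedAddCommGroup E] [NormedSpace ℝ E] [FiniteDimensional ℝ E]
    {M : Type} [MetricSpace M] [CompactSpace M] [ChartedSpace E M] [IsManifold 𝓘(ℝ, E) ∞ M]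
    [RiemannianBundle (fun x : M => TangentSpace 𝓘(ℝ, E) x)]
    [IsContMDiffRiemannianBundle 𝓘(ℝ, E) ∞ E (fun x : M => TangentSpace 𝓘(ℝ, E) x)]
    [IsRiemannianManifold 𝓘(ℝ, E) M] [PreconnectedSpace M] (Q : ℕ → Prop)
    (hQ : ∀ N : ℕ, ∃ p, N < p ∧ p.Prime ∧ Q p) (q : ℕ) (hq : q < 2) (e : ℕ → ℕ)
    (hX : XDGoal M Q q e) : (primeClosedGeodesicImages M).Infinite :=
  main_D hL pdGoal (E := E) Q hQ q hq e hX

end Vale.Agent.P216.B609
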