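import Vale.Agent.P216.B609.GoalsD

set_option linter.unusedSectionVars false

/-!
# P216-D: from `XGenD` to `PSysC`

`XIso.restD_of_lift`, `XIso.birthsD` = the fields of `PSysC` for `X : XGenD M q e B m k` and an
identification `Φ : XIso M S` of the cohomology of the system `S` (as `B633/AdaptC.lean` for
`XGenC`); `psysD` = the instance.
-/

open Module LinearMap Set

namespace Vale.Agent.P216.B633

open Vale.Agent.P216.AS (USeq)
open Vale.Agent.P216.T695
open Vale.Agent.P216.B64 Vale.Agent.P216.B609 GM L250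
open Vale.Agent.P216.Tight923 (Inv)

/-- the constant `1` does not vanish -/
theorem g0_neD {M : Type} [MetricSpace M] {q : ℕ} {e : ℕ → ℕ} {B : ℝ} {m₀ : ℕ} {k : Type} [Field k]
    (X : XGenD M q e B m₀ k) (hB : 0 < B) {t : ℝ} (ht : 0 ≤ t) (hne : (XL M t).Nonempty) :
    X.g 0 t ≠ 0 := by
  intro h0
  obtain ⟨c, hc⟩ := X.span 0 t ht (XL_mono (by linarith)) (hone k (XL M (t + B)))
  rw [h0, smul_zero] at hc
  have h1 : (hone k (XL M t) : HU k (XL M t) 0) = 0 := hc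
  rw [hone, AS.H.mk_eq_zero, AS.mem_Bc_zero] at h1
  obtain ⟨-, ε, hε, h⟩ := h1
  obtain ⟨x, hx⟩ := hne
  exact one_ne_zero (h (fun _ => x) ⟨fun _ => hx, fun i j => by simpa using hε⟩)

namespace XIso

variable {M : Type} [MetricSpace M] {q : ℕ} {e : ℕ → ℕ} {B : ℝ} {m₀ : ℕ} {k : Type} [Field k]
  {p : ℕ} {crit : Set ℝ} {S : TSys k p crit} (Φ : XIso M S) (X : XGenD M q e B m₀ k)

include Φ X

/-- the generator of the global classes of degree `i` -/
noncomputable def gd (i : ℕ) : S.Hi i := ⟨fun t => (Φ.φ t i).symm (X.g i t), fun s t h => by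
  apply (Φ.φ s i).injective
  rw [Φ.nat, LinearEquiv.apply_symm_apply, LinearEquiv.apply_symm_apply, X.res_g]
  exact h⟩

theorem φ_gd (t : ℝ) (i : ℕ) : Φ.φ t i (S.rH t i (Φ.gd X i)) = X.g i t :=
  (Φ.φ t i).apply_symm_apply _

theorem rH_gd_ne {t : ℝ} {i : ℕ} : S.rH t i (Φ.gd X i) ≠ 0 ↔ X.g i t ≠ 0 := by
  rw [← Φ.φ_gd X, ne_eq, ne_eq, LinearEquiv.map_eq_zero_iff]

/-- stable images are in the line of the generator -/
theorem spanD {t T : ℝ} (ht : 0 ≤ t) (hB : 0 < B) (h : t ≤ T) (hT : t + B ≤ T) {i : ℕ}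
    (x : S.H T i) : ∃ c : k, (S.TH i).ρ t T h x = c • S.rH t i (Φ.gd X i) := by
  obtain ⟨c, hc⟩ := X.span i t ht (XL_mono (by linarith))
    (hres k (XL_mono hT) i (Φ.φ T i x))
  refine ⟨c, (Φ.φ t i).injective ?_⟩
  rw [Φ.nat, map_smul, φ_gd, ← hc]
  exact (AS.res_res _ _ _).symm

theorem ρ_gd {s t : ℝ} (h : s ≤ t) (i : ℕ) :
    (S.TH i).ρ s t h (S.rH t i (Φ.gd X i)) = S.rH s i (Φ.gd X i) := (S.TH i).ρ_ev s t h _

/-- **every global class is a multiple of the generator** -/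
theorem exists_smulD (hB : 0 < B) (i : ℕ) (x : S.Hi i) : ∃ c : k, x = c • Φ.gd X i := by
  have h1 : ∀ t, 0 ≤ t → ∃ c : k, S.rH t i x = c • S.rH t i (Φ.gd X i) := by
    intro t ht
    obtain ⟨c, hc⟩ := Φ.spanD X ht hB (T := t + B) (by linarith) le_rfl (S.rH (t + B) i x)
    exact ⟨c, by rw [← hc, (S.TH i).ρ_ev]⟩
  by_cases hz : ∀ t, 0 ≤ t → S.rH t i (Φ.gd X i) = 0
  · refine ⟨0, (S.TH i).ext fun t => ?_⟩
    obtain ⟨c, hc⟩ := h1 (max t 0) (le_max_right _ _)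
    rw [hz _ (le_max_right _ _), smul_zero] at hc
    change S.rH t i x = S.rH t i _
    rw [zero_smul, map_zero, ← (S.TH i).ρ_ev t (max t 0) (le_max_left _ _) x, hc, map_zero]
  · push Not at hz
    obtain ⟨t₀, ht₀, hne⟩ := hz
    obtain ⟨c, hc⟩ := h1 t₀ ht₀
    refine ⟨c, (S.TH i).ext fun t => ?_⟩
    obtain ⟨c', hc'⟩ := h1 (max t t₀) (ht₀.trans (le_max_right _ _))
    have h2 : c' • S.rH t₀ i (Φ.gd X i) = c • S.rH t₀ i (Φ.gd X i) := by
      rw [← hc, ← (S.TH i).ρ_ev t₀ (max t t₀) (le_max_right _ _) x, hc', map_smul, ρ_gd]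
    have h3 : c' = c := smul_left_injective k hne h2
    change S.rH t i x = S.rH t i (c • Φ.gd X i)
    rw [map_smul, ← (S.TH i).ρ_ev t (max t t₀) (le_max_left _ _) x, hc', h3, map_smul, ρ_gd]

variable {a : ℕ → ℝ} (ha : RegCof crit a)

theorem rangeD_le (hB : 0 < B) (t : ℝ) (i : ℕ) :
    LinearMap.range (S.rH t i) ≤ Submodule.span k {S.rH t i (Φ.gd X i)} := by
  rintro _ ⟨x, rfl⟩
  obtain ⟨c, rfl⟩ := Φ.exists_smulD X hB i x
  rw [map_smul]
  exact Submodule.smul_mem _ _ (Submodule.mem_span_singleton_self _)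

theorem rkD (hB : 0 < B) (t : ℝ) (i : ℕ) : finrank k (LinearMap.range (S.rH t i)) ≤ 1 :=
  (Submodule.finrank_mono (Φ.rangeD_le X hB t i)).trans
    ((finrank_span_le_card _).trans (by simp))

theorem rH_ne_iffD (hB : 0 < B) (t : ℝ) (i : ℕ) : S.rH t i ≠ 0 ↔ X.g i t ≠ 0 := by
  rw [← Φ.rH_gd_ne X]
  constructor
  · intro h h0
    apply h
    ext x
    obtain ⟨c, rfl⟩ := Φ.exists_smulD X hB i x
    rw [map_smul, h0, smul_zero, LinearMap.zero_apply]
  · intro h h0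
    apply h
    rw [h0, LinearMap.zero_apply]

/-- **births** -/
theorem birthsD (hB : 0 < B) : S.Births e q B B where
  e_mono := X.e_mono
  e_par := X.e_par
  birth0 t ht _ := (Φ.rH_ne_iffD X hB t _).2 (X.birth0 t ht)
  birth i s t hs _ _ hst h := by
    have h1 := X.birth i s hs.le ((Φ.rH_ne_iffD X hB s _).1 h)
    refine (Φ.rH_ne_iffD X hB t _).2 fun h0 => h1 ?_
    rw [← X.res_g _ _ _ hst, h0, map_zero]

/-- **stable images** -/
theorem stableD (hB : 0 < B) {s t : ℝ} (hs : 0 ≤ s) (h : s ≤ s + B) (ht : s ≤ t) (i : ℕ) :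
    LinearMap.range ((S.TH i).ρ s (s + B) h) ≤ LinearMap.range ((S.TH i).ρ s t ht) := by
  rintro _ ⟨x, rfl⟩
  obtain ⟨c, hc⟩ := Φ.spanD X hs hB h le_rfl x
  exact ⟨c • S.rH t i (Φ.gd X i), by rw [hc, map_smul, ρ_gd]⟩

include ha in
/-- the global classes at the level `s` are the stable images -/
theorem range_rH_eqD (hB : 0 < B) {s T : ℝ} (hs : 0 ≤ s) (h : s ≤ T) (hT : s + B ≤ T) (i : ℕ) :
    LinearMap.range (S.rH s i) = LinearMap.range ((S.TH i).ρ s T h) := by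
  refine S.range_rH_eq ha h i fun t _ hst => ?_
  refine le_trans ?_ (Φ.stableD X hB hs (by linarith) hst i)
  rintro _ ⟨x, rfl⟩
  refine ⟨(S.TH i).ρ (s + B) T hT x, ?_⟩
  exact (S.TH i).ρ_ρ _ _ _ _ _ _

/-- a global class of degree `0` is seen at the levels where the constant `1` is not `0` -/
theorem inj0D (hB : 0 < B) {t : ℝ} (hg : X.g 0 t ≠ 0) (x : S.Hi 0) (hx : S.rH t 0 x = 0) :
    x = 0 := by
  obtain ⟨c, rfl⟩ := Φ.exists_smulD X hB 0 x
  rw [map_smul, smul_eq_zero] at hx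
  rcases hx with h | h
  · rw [h, zero_smul]
  · exact absurd h ((Φ.rH_gd_ne X).2 hg)

include ha in
/-- **the remaining fields of `PSysB`** from lifts -/
theorem restD_of_lift (h2 : (2 : k) ≠ 0) (hq : q < 2) (hB : 0 < B) {K : ℕ}
    (lift : ∀ i, i % 2 = q → Function.Surjective (S.πi i))
    (topH : ∀ t, 0 < t → t ∉ crit → ∃ N, ∀ i ≥ N, Subsingleton (S.H t i))
    (bars : ∀ t, 0 < t → t ∉ crit → ∀ m, ∀ T (h : t ≤ T), t + B ≤ T →
      ∑ i ∈ Finset.range m, (finrank k (S.H t i) -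
        finrank k (LinearMap.range ((S.TH i).ρ t T h))) ≤ K)
    (reg : ∀ s t (h : s ≤ t), 0 < s → (∀ x ∈ Set.Icc s t, x ∉ crit) →
      ∀ i, Function.Bijective ((S.TH i).ρ s t h))
    (rel : ∀ s t (h : s ≤ t), 0 < s → s ∉ crit → t ∉ crit → (crit ∩ Set.Ioo s t).Subsingleton →
      Nonempty (RelSeq k (S.F t) (S.F s) (fun i => (S.TF i).ρ s t h) (S.I t).rF (S.I s).rF)) :
    S.RestC e q K where
  two_ne := h2
  q_lt := hq
  lift := lift
  topH := topH
  bars t h0 ht m := by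
    refine le_trans (le_of_eq (Finset.sum_congr rfl fun i _ => ?_))
      (bars t h0 ht m (t + B) (by linarith) le_rfl)
    rw [Φ.range_rH_eqD X ha hB h0.le (by linarith) le_rfl i]
  reg := reg
  rel := rel
  rk i t _ _ := Φ.rkD X hB t (e i)
  e_ge := X.e_ge
  gap i t _ _ h := by
    by_contra h'
    exact (Φ.rH_ne_iffD X hB t (e i - 1)).1 h' (X.gap i t t ((Φ.rH_ne_iffD X hB t (e i)).1 h))

end XIso

end Vale.Agent.P216.B633

namespace Vale.Agent.P216.GSys

open Set Module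
open Vale.Agent.P265.AS (hh)
open Vale.Agent.P216.B609 (exists_del rank_quot_le)

variable {Λ : Type} [MetricSpace Λ] (S : GSys Λ)

/-- The dimension of the finite bars is bounded, uniformly in the level and in the primes `p`
with `Q p`, if the images are stable for these primes. -/
theorem bars_of_levelBoundQ (hL : S.LevelBound) {B : ℝ} (hB0 : 0 ≤ B) (Q : ℕ → Prop)
    (hB : ∀ p : ℕ, ∀ _ : Fact p.Prime, 2 < p → Q p → ∀ s t : ℝ, 0 < s →
      ∀ (h : s ≤ s + B) (h' : s + B ≤ t) (n : ℕ),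
        LinearMap.range (S.rV (ZMod p) h n) ≤ LinearMap.range (S.rV (ZMod p) (h.trans h') n))
    (h0 : S.BaseFin) : ∃ K : ℕ, ∀ p : ℕ, ∀ _ : Fact p.Prime, 2 < p → Q p → ∀ s : ℝ, 0 < s →
      s ∉ AS.Crit S.ℓ → ∀ (t : ℝ) (h : s ≤ t), s + B ≤ t → ∀ m : ℕ,
        ∑ n ∈ Finset.range m, (finrank (ZMod p) (S.V (ZMod p) s n) -
          finrank (ZMod p) (LinearMap.range (S.rV (ZMod p) h n))) ≤ K := by
  obtain ⟨K, hK⟩ := S.exists_sum_hh_le hL (B + 1)
  refine ⟨K, fun p hp hp2 hQ s hs hsc t hst hBt m => ?_⟩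
  obtain ⟨T, hT, hTc⟩ := S.exists_reg_level (a := s + B) (b := s + (B + 1)) (by linarith)
  have hsT : s ≤ T := by linarith [hT.1]
  have hsum := hK p hp hp2 s T hs hsT hT.2 hsc hTc (m + 1)
  have hfin := (S.finite_of_levelBound hL h0 p hp2 s hs hsc).1
  have hle : ∀ n, ((finrank (ZMod p) (S.V (ZMod p) s n) -
      finrank (ZMod p) (LinearMap.range (S.rV (ZMod p) hst n)) : ℕ) : Cardinal) ≤
      hh S.τ (-1 : ZMod p) (S.X T) (S.X s) (n + 1) := by
    intro n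
    have := hfin n
    obtain ⟨δ, hδ⟩ := exists_del (k := ZMod p) (χ := fun _ : Unit => (-1 : ZMod p))
      (S.mono _ _ hsT) (S.inv_τ s) n
    have h1 := rank_quot_le hδ
    rw [AS.rank_Hr] at h1
    refine le_trans ?_ h1
    have h2 : LinearMap.range (S.rV (ZMod p) hsT n) ≤ LinearMap.range (S.rV (ZMod p) hst n) :=
      (S.range_rV_le (k := ZMod p) (show s ≤ s + B by linarith) hT.1 n).trans
        (hB p hp hp2 hQ s t hs (by linarith) hBt n)
    have h3 : finrank (ZMod p) (S.V (ZMod p) s n) -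
        finrank (ZMod p) (LinearMap.range (S.rV (ZMod p) hst n)) ≤
        finrank (ZMod p) (S.V (ZMod p) s n ⧸ LinearMap.range (S.rV (ZMod p) hsT n)) := by
      have h4 := Submodule.finrank_mono h2
      have h5 := Submodule.finrank_quotient_add_finrank (LinearMap.range (S.rV (ZMod p) hsT n))
      omega
    calc _ ≤ ((finrank (ZMod p)
          (S.V (ZMod p) s n ⧸ LinearMap.range (S.rV (ZMod p) hsT n)) : ℕ) : Cardinal) := by
          exact_mod_cast h3
      _ = _ := Module.finrank_eq_rank _ _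
  have h1 : ((∑ n ∈ Finset.range m, (finrank (ZMod p) (S.V (ZMod p) s n) -
      finrank (ZMod p) (LinearMap.range (S.rV (ZMod p) hst n))) : ℕ) : Cardinal) ≤ K := by
    push_cast
    refine le_trans (Finset.sum_le_sum fun n _ => hle n) ?_
    rw [Finset.sum_range_succ'] at hsum
    exact le_self_add.trans hsum
  exact_mod_cast h1

end Vale.Agent.P216.GSys

namespace Vale.Agent.P216.B609

open AS L250 GM B64 DV706 B633 Set Topology
open Vale.Agent.P216.H494 Vale.Agent.P216.H288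

section

variable {M : Type} [MetricSpace M] [CompactSpace M] (G : GeoList M)
  (hD : DescentStmt (Hol.triv : Hol M) G)

/-- **The instance** for an unbounded set of primes, from the lifts. -/
theorem psysD (hLift : LiftD) (hL : (S0 G hD).LevelBound) (h0 : (S0 G hD).BaseFin) {q : ℕ}
    {e : ℕ → ℕ} {B : ℝ} (hB : 0 < B) (hq : q < 2) (Q : ℕ → Prop)
    (hX : ∀ p : ℕ, ∀ _ : Fact p.Prime, 2 < p → Q p →
      ∃ m : ℕ, (m : ZMod p) ≠ 0 ∧ (m : ZMod p) ≠ 1 ∧ Nonempty (XGenD M q e B m (ZMod p))) :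
    ∃ (K : ℕ) (B0 B1 : ℝ), ∀ p : ℕ, p.Prime → 2 < p → Q p → ∃ (k : Type) (_ : Field k),
      Nonempty (T695.PSysC k p (Crit G.ℓ) K B0 B1) := by
  have hst : ∀ p : ℕ, ∀ _ : Fact p.Prime, 2 < p → Q p → ∀ s t : ℝ, 0 < s →
      ∀ (h : s ≤ s + B) (h' : s + B ≤ t) (n : ℕ),
        LinearMap.range ((S0 G hD).rV (ZMod p) h n) ≤
          LinearMap.range ((S0 G hD).rV (ZMod p) (h.trans h') n) := by
    intro p hpp h2 hQ s t hs h h' i
    obtain ⟨m, hm0, hm1, ⟨X⟩⟩ := hX p hpp h2 hQ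
    exact (xiso G hD (ZMod p) hpp.out h2 (finAt G hD hL h0 p h2)).stableD X hB hs.le h
      (h.trans h') i
  obtain ⟨K, hK⟩ := (S0 G hD).bars_of_levelBoundQ hL hB.le Q hst h0
  obtain ⟨a, ha⟩ := exists_regCof (exists_reg G hD)
  refine ⟨K, B, B, fun p hp h2 hQ => ⟨ZMod p, @ZMod.instField p ⟨hp⟩, ?_⟩⟩
  have hpp : Fact p.Prime := ⟨hp⟩
  obtain ⟨m, hm0, hm1, ⟨X⟩⟩ := hX p hpp h2 hQ
  have hf := finAt G hD hL h0 p h2
  have Φ := xiso G hD (ZMod p) hp h2 hf
  refine ⟨(T0 G hD (ZMod p) hp h2 hf).toPSysC hp.pos ha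
    (Φ.restD_of_lift X ha (GSys.two_ne_zero' h2) hq hB (K := K) ?_ ?_ ?_ ?_ ?_)
    (Φ.birthsD X hB)⟩
  · exact hLift G hD p h2 hf X hq hB hm0 hm1
  · exact fun t ht htc => (hf t ht htc).2
  · exact fun t ht htc m T h hT => hK p hpp h2 hQ t ht htc T h hT m
  · exact fun s t h hs hc i => (S0 G hD).res_bijective hs h hc ((S0 G hD).mono s t h) i
  · exact fun s t h hs hsc htc h1 => rel G hD p h2 hf s t h hs hsc htc h1

end

/-- **The goal `PDGoal`.** -/
theorem pdGoal : PDGoal := by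
  intro hLift M _ _ ρ hρ hs hLOC hF G Q q e B hq hB hX
  have hD := descentStmt (Hol.triv : Hol M) G hρ hs
  exact psysD G hD hLift (GM.levelBound (GM.f1 hρ hs) hLOC GM.tw Hol.triv G hD)
    (baseFin_of_finM G hD hF) hB hq Q hX

end Vale.Agent.P216.B609
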