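import Vale.Agent.P216.Spine.Build2
import Vale.Agent.P216.AS.Htpy
import Vale.Agent.P216.GM.Spec
import Vale.Agent.P216.AS.Setup707
import Vale.Agent.P216.B64.Contract

/-!
# Theorem B of P216: the double cover with trivial holonomy

For the trivial holonomy the `-1` part of the cohomology of `Xt s` is the cohomology of the
sublevel set `XL M s` without symmetries (language of `B64/Contract.lean`: `I = Empty`).
-/

open Set Topology
open Vale.Agent.P216.H288 Vale.Agent.P216.H494 Vale.Agent.P216.L250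

namespace Vale.Agent.P216.B609

variable {M : Type} [MetricSpace M] {k : Type} [Field k]

/-- The section of the trivial double cover. -/
noncomputable def secL (g : LM M) : LM M × ℂ := (g, 1)

theorem dist_secL (x y : LM M) : dist (secL x) (secL y) = dist x y := by
  rw [Prod.dist_eq]
  exact max_eq_left (by simp [secL, dist_nonneg])

theorem revC_secL (x : LM M) : revC (secL x) = secL (L250.rev x) := by
  refine Prod.ext rfl ?_
  change (starRingEnd ℂ) 1 = 1
  exact map_one _

/-- the two sheets over `Y` -/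
def two (Y : Set (LM M)) : Set (LM M × ℂ) := {q | q.1 ∈ Y ∧ q.2 ^ 2 = 1}

theorem two_cases {Y : Set (LM M)} {q : LM M × ℂ} (h : q ∈ two Y) :
    q.1 ∈ Y ∧ (q = secL q.1 ∨ q = deckC (secL q.1)) := by
  refine ⟨h.1, ?_⟩
  have h2 := h.2
  rw [sq, mul_self_eq_one_iff] at h2
  rcases h2 with h2 | h2
  · exact Or.inl (Prod.ext rfl h2)
  · exact Or.inr (Prod.ext rfl h2)

theorem secL_mem {Y : Set (LM M)} {g : LM M} (h : g ∈ Y) : secL g ∈ two Y := ⟨h, one_pow 2⟩

theorem deck_secL_mem {Y : Set (LM M)} {g : LM M} (h : g ∈ Y) : deckC (secL g) ∈ two Y :=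
  ⟨h, by simp [secL, deckC]⟩

theorem two_mono {Y Y' : Set (LM M)} (h : Y ⊆ Y') : two Y ⊆ two Y' := fun _ hq => ⟨h hq.1, hq.2⟩

variable (k) in
/-- cochains of the cover, antisymmetric for the deck transformation -/
noncomputable abbrev CT (Y : Set (LM M)) : AS.Sub (AS.ASK (LM M × ℂ) k) :=
  AS.Cc (fun _ : Unit => deckC) (fun _ : Unit => (-1 : k)) (two Y)

variable (k) in
noncomputable abbrev ZT (Y : Set (LM M)) : AS.Sub (AS.ASK (LM M × ℂ) k) :=
  AS.Zr (fun _ : Unit => deckC) (fun _ : Unit => (-1 : k)) (two Y) (two Y)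

variable (k) in
noncomputable abbrev CU (Y : Set (LM M)) : AS.Sub (AS.ASK (LM M) k) := AS.Cc (B64.a0 (LM M)) (B64.c0 k) Y

variable (k) in
noncomputable abbrev ZU (Y : Set (LM M)) : AS.Sub (AS.ASK (LM M) k) := AS.Zr (B64.a0 (LM M)) (B64.c0 k) Y Y

theorem eqv0 {Y : Set (LM M)} {n : ℕ} (f : (Fin n → LM M) → k) :
    AS.Eqv (B64.a0 (LM M)) (B64.c0 k) Y f := fun i => i.elim

theorem isMor_secL (Y : Set (LM M)) :
    AS.IsMor (CT k Y) (ZT k Y) (CU k Y) (ZU k Y) (AS.pbK k (secL (M := M))) :=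
  AS.IsMor.of_comm (fun _ => eqv0 _)
    (fun {n f} hf => by
      obtain ⟨-, ε, hε, h⟩ := hf
      refine ⟨eqv0 _, ε, hε, fun x hx => h _ ⟨fun i => secL_mem (hx.1 i), fun i j => ?_⟩⟩
      change dist (secL (x i)) (secL (x j)) < ε
      rw [dist_secL]
      exact hx.2 i j)
    (AS.pbK_d _)

open Classical in
/-- Antisymmetric extension of a cochain. -/
noncomputable def extS {n : ℕ} (c : (Fin (n + 1) → LM M) → k) (q : Fin (n + 1) → LM M × ℂ) : k :=
  if ∀ i, 0 < (q i).2.re then c fun i => (q i).1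
  else if ∀ i, (q i).2.re < 0 then -c fun i => (q i).1 else 0

theorem extS_eqv {n : ℕ} (c : (Fin (n + 1) → LM M) → k) (X : Set (LM M × ℂ)) :
    AS.Eqv (fun _ : Unit => deckC) (fun _ : Unit => (-1 : k)) X (extS c) := by
  intro _ q _
  have e1 : (∀ i, 0 < ((deckC ∘ q) i).2.re) ↔ ∀ i, (q i).2.re < 0 := by
    simp only [Function.comp, deckC_snd, Complex.neg_re, Left.neg_pos_iff]
  have e2 : (∀ i, ((deckC ∘ q) i).2.re < 0) ↔ ∀ i, 0 < (q i).2.re := by
    simp only [Function.comp, deckC_snd, Complex.neg_re, Left.neg_neg_iff]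
  have e3 : (fun i => ((deckC ∘ q) i).1) = fun i => (q i).1 := rfl
  unfold extS
  rw [e3]
  by_cases h1 : ∀ i, 0 < (q i).2.re
  · have h2 : ¬ ∀ i, (q i).2.re < 0 := fun h => by
      have := h 0
      have := h1 0
      linarith
    rw [if_neg (fun h => h2 (e1.1 h)), if_pos (e2.2 h1), if_pos h1]
    ring
  · by_cases h2 : ∀ i, (q i).2.re < 0
    · rw [if_pos (e1.2 h2), if_neg h1, if_pos h2]
      ring
    · rw [if_neg (fun h => h2 (e1.1 h)), if_neg (fun h => h1 (e2.1 h)), if_neg h1, if_neg h2]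
      ring

theorem extS_secL {n : ℕ} (c : (Fin (n + 1) → LM M) → k) (x : Fin (n + 1) → LM M) :
    extS c (secL ∘ x) = c x := by
  unfold extS
  rw [if_pos fun i => by simp [secL]]
  rfl

theorem secL_bijective (Y : Set (LM M)) (n : ℕ) :
    Function.Bijective (AS.Hmap (isMor_secL (k := k) Y) n) := by
  refine AS.Hmap_bijective _ (fun {n f} hf hf' => ⟨hf, ?_⟩) fun {n c} _ => ⟨extS c, extS_eqv c _, ?_⟩
  · obtain ⟨-, ε, hε, h⟩ := hf'
    refine ⟨min ε 2, lt_min hε two_pos, fun q hq => ?_⟩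
    have hY : ∀ i, (q i).1 ∈ Y := fun i => (hq.1 i).1
    have hsec : f (secL ∘ fun i => (q i).1) = 0 := by
      refine h _ ⟨hY, fun i j => ?_⟩
      exact ((le_max_left _ _).trans (Prod.dist_eq (x := q i) (y := q j)).ge).trans_lt
        ((hq.2 i j).trans_le (min_le_left _ _))
    have hsgn : ∀ i j, (q i).2 = 1 → (q j).2 = -1 → False := by
      intro i j hi hj
      have h1 : dist (q i).2 (q j).2 < 2 := ((le_max_right _ _).trans
        (Prod.dist_eq (x := q i) (y := q j)).ge).trans_lt ((hq.2 i j).trans_le (min_le_right _ _))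
      rw [hi, hj, dist_eq_norm] at h1
      norm_num at h1
    have hc := fun i => (two_cases (hq.1 i)).2
    rcases hc 0 with h0 | h0
    · have h1 : q = secL ∘ fun i => (q i).1 := by
        funext i
        rcases hc i with h2 | h2
        · exact h2
        · exact (hsgn 0 i (by rw [h0]; rfl) (by rw [h2]; rfl)).elim
      rw [h1]
      exact hsec
    · have h1 : q = deckC ∘ (secL ∘ fun i => (q i).1) := by
        funext i
        rcases hc i with h2 | h2
        · exact (hsgn i 0 (by rw [h2]; rfl) (by rw [h0]; rfl)).elim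
        · exact h2
      rw [h1, hf () (secL ∘ fun i => (q i).1) fun i => secL_mem (hY i), hsec, mul_zero]
  · have h1 : c - AS.pbK k (secL (M := M)) n (extS c) = 0 := by
      funext x
      change c x - extS c (secL ∘ x) = 0
      rw [extS_secL, sub_self]
    rw [h1]
    exact Submodule.zero_mem _

/-- **SHEET0**: the isomorphism at the level of sets. -/
noncomputable def sheet (k : Type) [Field k] (Y : Set (LM M)) (n : ℕ) :
    AS.Ha (fun _ : Unit => deckC) (fun _ : Unit => (-1 : k)) (two Y) n ≃ₗ[k] B64.HU k Y n :=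
  LinearEquiv.ofBijective (AS.Hmap (isMor_secL (k := k) Y) n) (secL_bijective Y n)

/-- naturality for restrictions -/
theorem sheet_res {Y Y' : Set (LM M)} (h : Y ⊆ Y') (n : ℕ)
    (x : AS.Ha (fun _ : Unit => deckC) (fun _ : Unit => (-1 : k)) (two Y') n) :
    sheet k Y n (AS.res (two_mono h) n x) = B64.hres k h n (sheet k Y' n x) := by
  obtain ⟨c, hc, rfl⟩ := AS.H.exists_mk x
  rfl

theorem XX_triv (s : ℝ) : XX (Hol.triv : Hol M) s = two (GM.XL M s) := rfl

section S

variable [CompactSpace M] (G : GeoList M) (hD : DescentStmt (Hol.triv : Hol M) G)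

/-- **SHEET0** for the `GSys` with trivial holonomy. -/
noncomputable def phi (k : Type) [Field k] (t : ℝ) (n : ℕ) :
    (mkGSys Hol.triv G hD).V k t n ≃ₗ[k] B64.HU k (GM.XL M t) n :=
  sheet k (GM.XL M t) n

theorem phi_res {s t : ℝ} (h : s ≤ t) (n : ℕ) (x : (mkGSys Hol.triv G hD).V k t n) :
    phi G hD k s n (AS.res ((mkGSys Hol.triv G hD).mono s t h) n x) =
      B64.hres k (GM.XL_mono h) n (phi G hD k t n x) := by
  obtain ⟨c, hc, rfl⟩ := AS.H.exists_mk x
  rfl

/-- the reversal -/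
theorem phi_rH {p : ℕ} (hp : 0 < p) (t : ℝ) (n : ℕ) (x : (mkGSys Hol.triv G hD).V k t n) :
    phi G hD k t n (AS.GCx.Pair.rH ((mkGSys Hol.triv G hD).P_rstable k p hp t) n x) =
      B64.hpull k (B64.umap_rev t) n (phi G hD k t n x) := by
  obtain ⟨c, hc, rfl⟩ := AS.H.exists_mk x
  change AS.H.mk _ _ = AS.H.mk _ _
  congr 1
  funext y
  change c (revC ∘ (secL ∘ y)) = c (secL ∘ (L250.rev ∘ y))
  congr 1
  funext i
  exact revC_secL _

end S

end Vale.Agent.P216.B609
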