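import Vale.Agent.P265.H336.Ball
import Vale.Agent.P265.H336.Susp
import Vale.Agent.P265.H336.Exc
import Vale.Agent.P265.H336.Htpy
import Vale.Agent.P265.H336.Level

/-!
# The cohomology of the round sphere: at most one class in the degrees `0` and `n`
-/

open Set Topology

namespace Vale.Agent.P216.B609

open Vale.Agent.P265.AS

/-- the square norm -/
def nn {m : ℕ} (x : Fin m → ℝ) : ℝ := ∑ i, x i ^ 2

theorem nn_nonneg {m : ℕ} (x : Fin m → ℝ) : 0 ≤ nn x := Finset.sum_nonneg fun _ _ => sq_nonneg _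

theorem sq_le_nn {m : ℕ} (x : Fin m → ℝ) (i : Fin m) : x i ^ 2 ≤ nn x :=
  Finset.single_le_sum (f := fun i => x i ^ 2) (fun _ _ => sq_nonneg _) (Finset.mem_univ i)

theorem continuous_nn {m : ℕ} : Continuous (nn (m := m)) := by unfold nn; fun_prop

theorem nn_smul {m : ℕ} (c : ℝ) (x : Fin m → ℝ) : nn (fun i => c * x i) = c ^ 2 * nn x := by
  unfold nn
  rw [Finset.mul_sum]
  exact Finset.sum_congr rfl fun i _ => by ring

theorem nn_cons {m : ℕ} (a : ℝ) (x : Fin m → ℝ) :
    nn (Fin.cons a x : Fin (m + 1) → ℝ) = a ^ 2 + nn x := by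
  unfold nn
  rw [Fin.sum_univ_succ]
  simp

theorem nn_tail {m : ℕ} (x : Fin (m + 1) → ℝ) : nn x = x 0 ^ 2 + nn (Fin.tail x) := by
  unfold nn
  rw [Fin.sum_univ_succ]
  rfl

/-- The round sphere of dimension `n` in the space with the sup metric. -/
def YS (n : ℕ) : Set (Fin (n + 1) → ℝ) := {x | nn x = 1}

/-- the lower part -/
def YA (n : ℕ) : Set (Fin (n + 1) → ℝ) := {x | nn x = 1 ∧ x 0 ≤ 1 / 2}

/-- the upper half -/
def YL (n : ℕ) : Set (Fin (n + 1) → ℝ) := {x | nn x = 1 ∧ 0 ≤ x 0}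

variable {n : ℕ}

theorem abs_le_one {x : Fin (n + 1) → ℝ} (h : nn x = 1) (i : Fin (n + 1)) : |x i| ≤ 1 := by
  have := sq_le_nn x i
  rw [h] at this
  exact abs_le_one_iff_mul_self_le_one.2 (by nlinarith)

theorem isCompact_YS : IsCompact (YS n) := by
  refine (isCompact_cube (n + 1) 1).of_isClosed_subset
    (isClosed_eq continuous_nn continuous_const) fun x hx => ?_
  exact fun i => abs_le_one hx i

theorem isCompact_YA : IsCompact (YA n) :=
  isCompact_YS.inter_right (isClosed_le (continuous_apply 0) continuous_const)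

theorem isCompact_YL : IsCompact (YL n) :=
  isCompact_YS.inter_right (isClosed_le continuous_const (continuous_apply 0))

/-- the factor making the norm at most one -/
noncomputable def cfac {m : ℕ} (u : Fin m → ℝ) : ℝ := 1 / √(max 1 (nn u))

theorem cfac_sq {m : ℕ} (u : Fin m → ℝ) : cfac u ^ 2 = 1 / max 1 (nn u) := by
  unfold cfac
  rw [div_pow, one_pow, Real.sq_sqrt (zero_le_one.trans (le_max_left _ _))]

theorem continuous_cfac {m : ℕ} : Continuous (cfac (m := m)) := by
  unfold cfac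
  refine continuous_const.div (Real.continuous_sqrt.comp (continuous_const.max continuous_nn))
    fun u => ?_
  have : 0 < max 1 (nn u) := zero_lt_one.trans_le (le_max_left _ _)
  exact (Real.sqrt_pos.2 this).ne'

theorem cfac_eq_one {m : ℕ} {u : Fin m → ℝ} (h : nn u ≤ 1) : cfac u = 1 := by
  unfold cfac
  rw [max_eq_left h, Real.sqrt_one, div_one]

/-- the chart of the upper half -/
noncomputable def psi {m : ℕ} (u : Fin m → ℝ) : Fin (m + 1) → ℝ :=
  Fin.cons (√(1 - nn fun i => cfac u * u i)) fun i => cfac u * u i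

theorem nn_cfac {m : ℕ} (u : Fin m → ℝ) : nn (fun i => cfac u * u i) = nn u / max 1 (nn u) := by
  rw [nn_smul, cfac_sq]
  ring

theorem nn_cfac_le {m : ℕ} (u : Fin m → ℝ) : nn (fun i => cfac u * u i) ≤ 1 := by
  rw [nn_cfac]
  exact div_le_one_of_le₀ (le_max_right _ _) (zero_le_one.trans (le_max_left _ _))

theorem nn_psi {m : ℕ} (u : Fin m → ℝ) : nn (psi u) = 1 := by
  unfold psi
  rw [nn_cons, Real.sq_sqrt (by linarith [nn_cfac_le u])]
  ring

theorem continuous_psi {m : ℕ} : Continuous (psi (m := m)) := by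
  unfold psi
  have h1 : Continuous fun u : Fin m → ℝ => fun i => cfac u * u i :=
    continuous_pi fun i => continuous_cfac.mul (continuous_apply i)
  refine continuous_pi fun j => ?_
  refine Fin.cases ?_ (fun i => ?_) j
  · simp only [Fin.cons_zero]
    exact Real.continuous_sqrt.comp (continuous_const.sub (continuous_nn.comp h1))
  · simp only [Fin.cons_succ]
    exact continuous_cfac.mul (continuous_apply i)

theorem hh_upper {k : Type} [Field k] (q : ℕ) :
    hh id (1 : k) (YL n) (YL n ∩ YA n) q ≤ if q = n then 1 else 0 := by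
  have h34 : (3 / 4 : ℝ) ≤ 1 ^ 2 := by norm_num
  refine le_trans ?_ ((hh_ball_le (k := k) n one_pos (by norm_num : (0 : ℝ) < 3 / 4) h34
    (1 : k) q).trans (hh_cube_le n (a := 1) (b := √(3 / 4 / (n + 1))) ?_ ?_ (1 : k) q))
  · refine hh_le_of_retract (g' := id) (X' := cube n 1) (A' := ballOut n 1 (3 / 4))
      (φ := fun x => Fin.tail x) (ψ := psi) (H := fun _ x => x) ?_ ?_ ?_ inter_subset_left
      (fun u hu => hu.1) (fun _ _ => rfl) ?_ (1 : k) q
    · refine ⟨fun x hx i => abs_le_one hx.1 i.succ, fun x hx => ⟨fun i => abs_le_one hx.1.1 i.succ,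
        ?_⟩, fun _ _ => rfl, uc_of_compact' isCompact_YL ?_⟩
      · change 3 / 4 ≤ nn (Fin.tail x)
        have h1 := hx.1.1
        rw [nn_tail] at h1
        have h2 := hx.1.2
        have h3 := hx.2.2
        nlinarith
      · exact Continuous.continuousOn (continuous_pi fun i => continuous_apply i.succ)
    · refine ⟨fun u _ => ⟨nn_psi u, Real.sqrt_nonneg _⟩, fun u hu => ⟨⟨nn_psi u,
        Real.sqrt_nonneg _⟩, nn_psi u, ?_⟩, fun _ _ => rfl,
        uc_of_compact' (isCompact_cube n 1) continuous_psi.continuousOn⟩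
      change √(1 - nn fun i => cfac u * u i) ≤ 1 / 2
      have h1 : 3 / 4 ≤ nn fun i => cfac u * u i := by
        rw [nn_cfac, le_div_iff₀ (zero_lt_one.trans_le (le_max_left _ _))]
        have h2 : 3 / 4 ≤ nn u := hu.2
        rcases le_total 1 (nn u) with h | h
        · rw [max_eq_right h]; linarith
        · rw [max_eq_left h]; linarith
      rw [Real.sqrt_le_left (by norm_num)]
      norm_num
      linarith
    · exact ⟨fun _ _ x hx => hx, fun _ _ x hx => hx, fun _ _ _ _ => rfl,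
        fun ε hε => ⟨ε, hε, fun _ _ _ _ x _ y _ _ h => h⟩⟩
    · intro x hx
      have h1 := hx.1
      rw [nn_tail] at h1
      have h2 : nn (Fin.tail x) ≤ 1 := by nlinarith [sq_nonneg (x 0)]
      have h3 : (fun i => cfac (Fin.tail x) * Fin.tail x i) = Fin.tail x := by
        funext i
        rw [cfac_eq_one h2, one_mul]
      change x = psi (Fin.tail x)
      unfold psi
      rw [h3]
      have h4 : √(1 - nn (Fin.tail x)) = x 0 := by
        rw [show 1 - nn (Fin.tail x) = x 0 ^ 2 by linarith, Real.sqrt_sq hx.2]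
      rw [h4]
      exact (Fin.cons_self_tail x).symm
  · positivity
  · rw [Real.sqrt_le_left zero_le_one, one_pow, div_le_one (by positivity)]
    have : (0 : ℝ) ≤ n := Nat.cast_nonneg n
    linarith

theorem hh_excise {k : Type} [Field k] (q : ℕ) :
    hh id (1 : k) (YS n) (YA n) q ≤ hh id (1 : k) (YL n) (YL n ∩ YA n) q := by
  refine hh_le_excision (δ := 1 / 4) (fun x hx => hx.1) (fun _ => Iff.rfl) (by norm_num) ?_ _ _
  intro x hx hxA y hy hxy
  have h1 : 1 / 2 < x 0 := by
    by_contra h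
    exact hxA ⟨hx, not_lt.1 h⟩
  have h2 : dist (x 0) (y 0) < 1 / 4 := (dist_le_pi_dist x y 0).trans_lt hxy
  rw [Real.dist_eq, abs_lt] at h2
  exact ⟨hy, by linarith⟩

/-- the straight path to the south pole, before normalisation -/
def wv (s : ℝ) (x : Fin (n + 1) → ℝ) (i : Fin (n + 1)) : ℝ :=
  (1 - s) * x i - s * (Pi.single (0 : Fin (n + 1)) (1 : ℝ) : Fin (n + 1) → ℝ) i

theorem wv_zero (s : ℝ) (x : Fin (n + 1) → ℝ) : wv s x 0 = (1 - s) * x 0 - s := by
  simp [wv]

theorem wv_succ (s : ℝ) (x : Fin (n + 1) → ℝ) (i : Fin n) : wv s x i.succ = (1 - s) * x i.succ := by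
  simp [wv]

theorem nn_wv (s : ℝ) (x : Fin (n + 1) → ℝ) :
    nn (wv s x) = (1 - s) ^ 2 * nn x - 2 * s * (1 - s) * x 0 + s ^ 2 := by
  rw [nn_tail, nn_tail x, wv_zero]
  have : nn (Fin.tail (wv s x)) = (1 - s) ^ 2 * nn (Fin.tail x) := by
    rw [← nn_smul]
    congr 1
    funext i
    exact wv_succ s x i
  rw [this]
  ring

theorem nn_wv_pos {s : ℝ} (hs : s ∈ Icc (0 : ℝ) 1) {x : Fin (n + 1) → ℝ} (hx : x ∈ YA n) :
    0 < nn (wv s x) ∧ (1 - 2 * s) ^ 2 ≤ nn (wv s x) := by
  rw [nn_wv, hx.1, mul_one]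
  have h0 := hs.1
  have h1 := hs.2
  have h2 := hx.2
  have h3 : 0 ≤ s * (1 - s) := mul_nonneg h0 (by linarith)
  constructor
  · nlinarith [sq_nonneg (1 - 2 * s)]
  · nlinarith

/-- the contraction of the lower part to the south pole -/
noncomputable def defA (s : ℝ) (x : Fin (n + 1) → ℝ) (i : Fin (n + 1)) : ℝ :=
  1 / √(nn (wv s x)) * wv s x i

theorem defA_mem {s : ℝ} (hs : s ∈ Icc (0 : ℝ) 1) {x : Fin (n + 1) → ℝ} (hx : x ∈ YA n) :
    defA s x ∈ YA n := by
  obtain ⟨h1, h2⟩ := nn_wv_pos hs hx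
  have h3 := Real.sqrt_pos.2 h1
  constructor
  · change nn (fun i => 1 / √(nn (wv s x)) * wv s x i) = 1
    rw [nn_smul, div_pow, one_pow, Real.sq_sqrt h1.le]
    field_simp
  · change 1 / √(nn (wv s x)) * wv s x 0 ≤ 1 / 2
    rw [one_div_mul_eq_div, div_le_iff₀ h3, wv_zero]
    have h4 : 1 - 2 * s ≤ √(nn (wv s x)) := Real.le_sqrt_of_sq_le h2
    have := hs.1
    have := hs.2
    have := hx.2
    nlinarith

theorem continuousOn_defA : ContinuousOn (fun q : ℝ × (Fin (n + 1) → ℝ) => defA q.1 q.2)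
    (Icc (0 : ℝ) 1 ×ˢ YA n) := by
  have h1 : Continuous fun q : ℝ × (Fin (n + 1) → ℝ) => wv q.1 q.2 := by
    refine continuous_pi fun i => ?_
    unfold wv
    fun_prop
  refine continuousOn_pi.2 fun i => ?_
  change ContinuousOn (fun q : ℝ × (Fin (n + 1) → ℝ) => 1 / √(nn (wv q.1 q.2)) * wv q.1 q.2 i) _
  refine ContinuousOn.mul (ContinuousOn.div continuousOn_const
    (Real.continuous_sqrt.comp (continuous_nn.comp h1)).continuousOn fun q hq => ?_)
    ((continuous_apply i).comp h1).continuousOn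
  exact (Real.sqrt_pos.2 (nn_wv_pos hq.1 hq.2).1).ne'

theorem hh_lower {k : Type} [Field k] (q : ℕ) :
    hh id (1 : k) (YA n) ∅ q ≤ if q = 0 then 1 else 0 := by
  refine le_trans ?_ (hh_cube_le 0 (a := 1) (b := 1) one_pos le_rfl (1 : k) q)
  refine hh_le_of_retract (g' := id) (X' := cube 0 1) (A' := cubeOut 0 1 1)
    (φ := fun _ i => i.elim0) (ψ := fun _ => -Pi.single (0 : Fin (n + 1)) (1 : ℝ))
    (H := defA) ?_ ?_ ?_ (empty_subset _) (fun u hu => hu.1) ?_ ?_ (1 : k) q
  · exact ⟨fun _ _ i => i.elim0, fun _ h => h.elim, fun _ _ => rfl,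
      fun ε hε => ⟨1, one_pos, fun _ _ _ _ _ => by rw [dist_self]; exact hε⟩⟩
  · refine ⟨fun _ _ => ⟨?_, ?_⟩, fun u hu => ?_, fun _ _ => rfl,
      fun ε hε => ⟨1, one_pos, fun _ _ _ _ _ => by rw [dist_self]; exact hε⟩⟩
    · unfold nn
      rw [Finset.sum_eq_single 0]
      · simp
      · intro i _ hi
        simp [hi]
      · simp
    · simp only [Pi.neg_apply, Pi.single_eq_same]
      norm_num
    · obtain ⟨_, i, _⟩ := hu
      exact i.elim0
  · exact ⟨fun s hs x hx => defA_mem hs hx, fun _ _ _ h => h.elim, fun _ _ _ _ => rfl,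
      uc_of_compact isCompact_YA continuousOn_defA⟩
  · intro x hx
    funext i
    have h1 : wv 0 x = x := by
      funext j
      simp [wv]
    change 1 / √(nn (wv 0 x)) * wv 0 x i = x i
    rw [h1, hx.1, Real.sqrt_one, div_one, one_mul]
  · intro x _
    funext i
    have h1 : wv 1 x = -Pi.single (0 : Fin (n + 1)) (1 : ℝ) := by
      funext j
      simp [wv]
    change 1 / √(nn (wv 1 x)) * wv 1 x i = _
    rw [nn_wv, h1]
    simp

/-- **The cohomology of the round sphere.** -/
theorem hh_YS_le {k : Type} [Field k] (q : ℕ) :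
    hh id (1 : k) (YS n) ∅ q ≤ (if q = 0 then 1 else 0) + if q = n then 1 else 0 := by
  refine (hh_triple (g := id) (B := YA n) (empty_subset _) (fun x hx => hx.1) (fun _ => Iff.rfl)
    (1 : k) q).trans ?_
  exact add_le_add (hh_lower q) ((hh_excise q).trans (hh_upper q))

end Vale.Agent.P216.B609
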